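import Vale.Agent.P088.R2.H509.EP.Lit2

/-!
# P088, stage 3, zone T: the cut-off of the costs

`etx q d`, `ety q d`: continuous, between `0` and `1`; `1` where
`.75 c₀² ≤ |x - y|² ≤ 1.05 b`, `tx rT ≤ 5/2`, `3/4 ν₁ e^u ≤ Φ' ≤ 3/2 nm e^u`, `u ≤ uta + 1/2`;
their support is in `.64 c₀² ≤ |x - y|² ≤ 1.1 b`, `tx rT ≤ 3`, `ν₁ / 2 e^u ≤ Φ' ≤ 2 nm e^u`,
`u ≤ uta + 1` (`b = p(1/10)²`, `u = l(x) + l(y)`).
-/

open Set Filter
open scoped ContDiff Topology

noncomputable section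

namespace Vale.Agent.P088.R2.H354.T

open Vale.Agent.P088.LR Vale.Agent.P088.HY Vale.Agent.P088.R2.H31.EP
open Real (smoothTransition)

variable {n : ℕ}

/-- The square of the outer radius. -/
def bq (q : Cst) : ℝ := prP q.e₁ (1 / 10) ^ 2

/-- The cut in `t = |x - y|²`. -/
def e1 (q : Cst) (t : ℝ) : ℝ :=
  smoothTransition ((100 * t - 64 * q.c₀ ^ 2) / (11 * q.c₀ ^ 2)) *
    smoothTransition (2 * (11 * bq q - 10 * t) / bq q)

/-- The cut in the ratio `x = Φ' / e^u`. -/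
def e3 (q : Cst) (x : ℝ) : ℝ :=
  smoothTransition (2 * (2 * x / q.ν₁ - 1)) * smoothTransition (2 * (2 - x / q.nm))

/-- The ratio `Φ' / e^u`, `u = l(x) + l(y)`. -/
def rt (d : Pk n) (z : VV n) : ℝ := deriv d.Φ (d.u0 z) / Real.exp (d.u0 z)

/-- The cut-off of the costs of the tube `W_x = 0`. -/
def etx (q : Cst) (d : Pk n) (z : VV n) : ℝ :=
  e1 q (qq z) * smoothTransition (2 * (3 - d.tx q q.rT z)) * e3 q (rt d z) *
    smoothTransition (2 * (d.uta q + 1 - d.u0 z))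

/-- The cut-off of the costs of the tube `W_y = 0`. -/
def ety (q : Cst) (d : Pk n) (z : VV n) : ℝ :=
  e1 q (qq z) * smoothTransition (2 * (3 - d.ty q q.rT z)) * e3 q (rt d z) *
    smoothTransition (2 * (d.uta q + 1 - d.u0 z))

section e

variable {q : Cst} {d : Pk n} {z : VV n} {t x : ℝ}

theorem e1_one (hc : 0 < q.c₀) (hb : 0 < bq q) (h1 : 3 / 4 * q.c₀ ^ 2 ≤ t)
    (h2 : t ≤ 21 / 20 * bq q) : e1 q t = 1 := by
  unfold e1
  rw [smoothTransition.one_of_one_le, smoothTransition.one_of_one_le, one_mul]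
  · rw [le_div_iff₀ hb]; linarith
  · rw [le_div_iff₀ (by positivity)]; linarith

theorem e1_supp (hc : 0 < q.c₀) (hb : 0 < bq q) (h : e1 q t ≠ 0) :
    64 / 100 * q.c₀ ^ 2 < t ∧ t < 11 / 10 * bq q := by
  unfold e1 at h
  constructor
  · by_contra hc'
    refine h ?_
    rw [smoothTransition.zero_of_nonpos, zero_mul]
    exact div_nonpos_of_nonpos_of_nonneg (by linarith) (by positivity)
  · by_contra hc'
    refine h ?_
    rw [smoothTransition.zero_of_nonpos (x := 2 * (11 * bq q - 10 * t) / bq q), mul_zero]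
    exact div_nonpos_of_nonpos_of_nonneg (by linarith) hb.le

theorem e3_one (hν : 0 < q.ν₁) (hn : 0 < q.nm) (h1 : 3 / 4 * q.ν₁ ≤ x) (h2 : x ≤ 3 / 2 * q.nm) :
    e3 q x = 1 := by
  unfold e3
  rw [smoothTransition.one_of_one_le, smoothTransition.one_of_one_le, one_mul]
  · have : x / q.nm ≤ 3 / 2 := by rwa [div_le_iff₀ hn]
    linarith
  · have : 3 / 2 ≤ 2 * x / q.ν₁ := by rw [le_div_iff₀ hν]; linarith
    linarith

theorem e3_supp (hν : 0 < q.ν₁) (hn : 0 < q.nm) (h : e3 q x ≠ 0) :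
    q.ν₁ / 2 < x ∧ x < 2 * q.nm := by
  unfold e3 at h
  constructor
  · by_contra hc'
    refine h ?_
    rw [smoothTransition.zero_of_nonpos, zero_mul]
    have : 2 * x / q.ν₁ ≤ 1 := by rw [div_le_one hν]; linarith
    linarith
  · by_contra hc'
    refine h ?_
    rw [smoothTransition.zero_of_nonpos (x := 2 * (2 - x / q.nm)), mul_zero]
    have : 2 ≤ x / q.nm := by rw [le_div_iff₀ hn]; linarith
    linarith

theorem st_mem (x : ℝ) : 0 ≤ smoothTransition x ∧ smoothTransition x ≤ 1 :=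
  ⟨smoothTransition.nonneg x, smoothTransition.le_one x⟩

theorem mul_mem {x y : ℝ} (hx : 0 ≤ x ∧ x ≤ 1) (hy : 0 ≤ y ∧ y ≤ 1) :
    0 ≤ x * y ∧ x * y ≤ 1 := ⟨mul_nonneg hx.1 hy.1, mul_le_one₀ hx.2 hy.1 hy.2⟩

theorem etx_mem (q : Cst) (d : Pk n) (z : VV n) : 0 ≤ etx q d z ∧ etx q d z ≤ 1 :=
  mul_mem (mul_mem (mul_mem (mul_mem (st_mem _) (st_mem _)) (st_mem _))
    (mul_mem (st_mem _) (st_mem _))) (st_mem _)

theorem ety_mem (q : Cst) (d : Pk n) (z : VV n) : 0 ≤ ety q d z ∧ ety q d z ≤ 1 :=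
  mul_mem (mul_mem (mul_mem (mul_mem (st_mem _) (st_mem _)) (st_mem _))
    (mul_mem (st_mem _) (st_mem _))) (st_mem _)

/-- The set where `etx = 1`. -/
theorem etx_one (hc : 0 < q.c₀) (hb : 0 < bq q) (hν : 0 < q.ν₁) (hn : 0 < q.nm)
    (h1 : 3 / 4 * q.c₀ ^ 2 ≤ qq z) (h2 : qq z ≤ 21 / 20 * bq q) (h3 : d.tx q q.rT z ≤ 5 / 2)
    (h4 : 3 / 4 * q.ν₁ ≤ rt d z) (h5 : rt d z ≤ 3 / 2 * q.nm) (h6 : d.u0 z ≤ d.uta q + 1 / 2) :
    etx q d z = 1 := by
  unfold etx
  rw [e1_one hc hb h1 h2, e3_one hν hn h4 h5, smoothTransition.one_of_one_le (by linarith),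
    smoothTransition.one_of_one_le (by linarith)]
  norm_num

theorem ety_one (hc : 0 < q.c₀) (hb : 0 < bq q) (hν : 0 < q.ν₁) (hn : 0 < q.nm)
    (h1 : 3 / 4 * q.c₀ ^ 2 ≤ qq z) (h2 : qq z ≤ 21 / 20 * bq q) (h3 : d.ty q q.rT z ≤ 5 / 2)
    (h4 : 3 / 4 * q.ν₁ ≤ rt d z) (h5 : rt d z ≤ 3 / 2 * q.nm) (h6 : d.u0 z ≤ d.uta q + 1 / 2) :
    ety q d z = 1 := by
  unfold ety
  rw [e1_one hc hb h1 h2, e3_one hν hn h4 h5, smoothTransition.one_of_one_le (by linarith),
    smoothTransition.one_of_one_le (by linarith)]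
  norm_num

/-- The support of `etx`. -/
theorem etx_supp (hc : 0 < q.c₀) (hb : 0 < bq q) (hν : 0 < q.ν₁) (hn : 0 < q.nm)
    (h : etx q d z ≠ 0) : (64 / 100 * q.c₀ ^ 2 < qq z ∧ qq z < 11 / 10 * bq q) ∧
      d.tx q q.rT z < 3 ∧ (q.ν₁ / 2 < rt d z ∧ rt d z < 2 * q.nm) ∧ d.u0 z < d.uta q + 1 := by
  unfold etx at h
  obtain ⟨h, h4⟩ := ne_zero_and_ne_zero_of_mul h
  obtain ⟨h, h3⟩ := ne_zero_and_ne_zero_of_mul h
  obtain ⟨h1, h2⟩ := ne_zero_and_ne_zero_of_mul h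
  refine ⟨e1_supp hc hb h1, ?_, e3_supp hν hn h3, ?_⟩
  · by_contra hc'
    exact h2 (smoothTransition.zero_of_nonpos (by linarith))
  · by_contra hc'
    exact h4 (smoothTransition.zero_of_nonpos (by linarith))

theorem ety_supp (hc : 0 < q.c₀) (hb : 0 < bq q) (hν : 0 < q.ν₁) (hn : 0 < q.nm)
    (h : ety q d z ≠ 0) : (64 / 100 * q.c₀ ^ 2 < qq z ∧ qq z < 11 / 10 * bq q) ∧
      d.ty q q.rT z < 3 ∧ (q.ν₁ / 2 < rt d z ∧ rt d z < 2 * q.nm) ∧ d.u0 z < d.uta q + 1 := by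
  unfold ety at h
  obtain ⟨h, h4⟩ := ne_zero_and_ne_zero_of_mul h
  obtain ⟨h, h3⟩ := ne_zero_and_ne_zero_of_mul h
  obtain ⟨h1, h2⟩ := ne_zero_and_ne_zero_of_mul h
  refine ⟨e1_supp hc hb h1, ?_, e3_supp hν hn h3, ?_⟩
  · by_contra hc'
    exact h2 (smoothTransition.zero_of_nonpos (by linarith))
  · by_contra hc'
    exact h4 (smoothTransition.zero_of_nonpos (by linarith))

theorem cst {E : Type*} [TopologicalSpace E] {f : E → ℝ} (hf : Continuous f) :
    Continuous fun z => smoothTransition (f z) := smoothTransition.continuous.comp hf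

/-- The cut-offs of the costs are continuous. -/
theorem et_ct (h : LitSm q d) (hΦ : Continuous (deriv d.Φ)) (hr : H509.Rad.Ok q.e₁ rp)
    (hp : PkOk q d) (hM : 1 ≤ q.M₀) (ht : 0 < q.rT) : Continuous (etx q d) ∧ Continuous (ety q d) := by
  have u0 : Continuous d.u0 := h.u0.continuous
  have q0 : Continuous (qq : VV n → ℝ) := qq_sm.continuous
  have x0 : Continuous (d.tx q q.rT) := (hp.tx_sm hr hM ht).continuous
  have y0 : Continuous (d.ty q q.rT) := (hp.ty_sm hr hM ht).continuous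
  have c1 : Continuous fun z : VV n => e1 q (qq z) :=
    (cst (((continuous_const.mul q0).sub continuous_const).div_const _)).mul
      (cst ((continuous_const.mul (continuous_const.sub (continuous_const.mul q0))).div_const _))
  have c2 : Continuous (rt d) :=
    (hΦ.comp u0).div (Real.continuous_exp.comp u0) fun z => (Real.exp_pos _).ne'
  have c3 : Continuous fun z : VV n => e3 q (rt d z) :=
    (cst (continuous_const.mul (((continuous_const.mul c2).div_const _).sub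
      continuous_const))).mul (cst (continuous_const.mul (continuous_const.sub (c2.div_const _))))
  have c4 : Continuous fun z : VV n => smoothTransition (2 * (d.uta q + 1 - d.u0 z)) :=
    cst (continuous_const.mul (continuous_const.sub u0))
  exact ⟨((c1.mul (cst (continuous_const.mul (continuous_const.sub x0)))).mul c3).mul c4,
    ((c1.mul (cst (continuous_const.mul (continuous_const.sub y0)))).mul c3).mul c4⟩

end e

end Vale.Agent.P088.R2.H354.T
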