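import Vale.Agent.P088.R2.H354.T.Win
import Vale.Agent.P088.R2.H281.A.Win

/-!
# P088, stage 3, zone T: the two windows on the package

`evWn`: `m₁ + β₁ + 1 ≤ uth / 2`, `uth + 1 ≤ m₂`, `m₂ + β₂ + 1 ≤ uta`, the slope `d.Φ` has the
windows `[m₁, m₁ + β₁]` (`f = 9/10`) and `[m₂, m₂ + β₂]` (`f = 2`), and there is no other point
below `utb` with `2 ν₁ e^u ≤ Φ' ≤ nm / 2 e^u`.
-/

open Set Filter MeasureTheory
open scoped ContDiff Topology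

noncomputable section

namespace Vale.Agent.P088.R2.H354.T

open Vale.Agent.P088.LR Vale.Agent.P088.HY Vale.Agent.P088.R2.H31.EP
open Vale.Agent.P088.R2.H404.INF Vale.Agent.P088.R2.H281.A
open Vale.Agent.P088.R2.H313.Ph Vale.Agent.P088.R2.H313.Tp

variable {n : ℕ}

/-- The lengths of the windows. -/
def b1 (q : Cst) : ℝ := 10 * Real.log (q.nm / q.ν₁)
def b2 (q : Cst) : ℝ := Real.log (q.nm / q.ν₁)

/-- The bounds in the windows. -/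
def B1 (q : Cst) : ℕ → ℝ := BW q.nm (b1 q) q.ph.Cd
def B2 (q : Cst) : ℕ → ℝ := BW q.nm (b2 q) q.ph.Ct

/-- The upper bound for `m₁`. -/
def mM (q : Cst) : ℝ := Real.log (q.ph.Cb * q.M₀ / q.nm)

/-- The conditions on the constants. -/
structure WC (q : Cst) : Prop where
  w : WinC q
  νp : 0 < q.ν₁
  ν4 : 4 * q.ν₁ ≤ q.nm
  ν1 : q.ν₁ ≤ 1
  Cd : ∀ j, 0 ≤ q.ph.Cd j
  Ct : ∀ j, 0 ≤ q.ph.Ct j
  M : q.nm ≤ q.M₀
  r1 : mM q + b1 q + 1 ≤ q.R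
  r2 : (1 + q.ph.CT) * (q.ph.Cb * q.M₀) < 2 * q.ν₁ * Real.exp q.R
  r3 : Real.log ((1 + q.ph.CT) * (q.ph.Cb * q.M₀)) - Real.log q.ν₁ + 1 ≤ q.R
  r4 : b2 q + 1 ≤ 1 / 100 * q.R

theorem evWC : EvC WC := by
  have h1 : EvC fun q => q.nm ≤ q.M₀ := EvC.at_M₀ (fun q t => q.nm ≤ t) fun _ =>
    eventually_ge_atTop _
  have h2 : EvC fun q => 1 ≤ q.nm → q.ν₁ ≤ 1 / 4 :=
    EvC.at_ν₁ (fun q t => 1 ≤ q.nm → t ≤ 1 / 4) fun q => by
      exact (sml_le (by norm_num)).mono fun _ h _ => h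
  have h3 : EvC fun q => mM q + b1 q + 1 ≤ q.R ∧ (0 < q.ν₁ →
      (1 + q.ph.CT) * (q.ph.Cb * q.M₀) < 2 * q.ν₁ * Real.exp q.R) ∧
      Real.log ((1 + q.ph.CT) * (q.ph.Cb * q.M₀)) - Real.log q.ν₁ + 1 ≤ q.R ∧
      b2 q + 1 ≤ 1 / 100 * q.R := by
    refine EvC.at_R (fun q t => mM q + b1 q + 1 ≤ t ∧ (0 < q.ν₁ →
      (1 + q.ph.CT) * (q.ph.Cb * q.M₀) < 2 * q.ν₁ * Real.exp t) ∧
      Real.log ((1 + q.ph.CT) * (q.ph.Cb * q.M₀)) - Real.log q.ν₁ + 1 ≤ t ∧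
      b2 q + 1 ≤ 1 / 100 * t) fun q => ?_
    filter_upwards [eventually_ge_atTop (mM q + b1 q + 1),
      ev_exp (c := 1) one_pos ((1 + q.ph.CT) * (q.ph.Cb * q.M₀) / (2 * q.ν₁)),
      eventually_ge_atTop (Real.log ((1 + q.ph.CT) * (q.ph.Cb * q.M₀)) - Real.log q.ν₁ + 1),
      eventually_ge_atTop (100 * (b2 q + 1))] with t a1 a2 a3 a4
    refine ⟨a1, fun h => ?_, a3, by linarith⟩
    rw [div_lt_iff₀ (by positivity), one_mul] at a2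
    linarith
  refine (((EvC.good.and EvC.pos).and (h1.and h2)).and (h3.and evWin)).mono ?_
  rintro q ⟨⟨⟨⟨⟨g, -, -, -, -⟩, -⟩, p⟩, c1, c2⟩, ⟨c3, c4, c5, c6⟩, w⟩
  have hν : 0 < q.ν₁ := p.1.2.2.2.2.2.2.1
  have hn : 1 ≤ q.nm := w.nm
  have := c2 hn
  exact ⟨w, hν, by linarith, by linarith, g.Cd0, g.Ct0, c1, c3, c4 hν, c5, c6⟩

/-- The windows on the package. -/
structure Wn (q : Cst) (d : Pk n) (m₁ m₂ : ℝ) : Prop where
  m0 : 0 ≤ m₁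
  mL : Real.log (q.M₀ / q.nm) ≤ m₁
  mM : m₁ ≤ mM q
  a1 : m₁ + b1 q + 1 ≤ d.uth q / 2
  w1 : IsWin (9 / 10) d.Φ m₁ (b1 q) q.ν₁ q.nm (B1 q)
  b0 : d.uth q + 1 ≤ m₂
  b1 : m₂ + b2 q + 1 ≤ d.uta q
  w2 : IsWin 2 d.Φ m₂ (b2 q) q.ν₁ q.nm (B2 q)
  inv : ∀ u ≤ d.utb q, 2 * q.ν₁ * Real.exp u ≤ deriv d.Φ u →
    deriv d.Φ u ≤ q.nm / 2 * Real.exp u →
      (m₁ + 1 / 4 ≤ u ∧ u ≤ m₁ + T.b1 q - 1 / 4) ∨ (m₂ + 1 / 4 ≤ u ∧ u ≤ m₂ + b2 q - 1 / 4)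

theorem wn_of {q : Cst} (hq : WC q) {d : Pk n} (h : PkOk q d) : ∃ m₁ m₂, Wn q d m₁ m₂ := by
  have hw := hq.w
  have hR := hw.R1
  have hl := l₀_le hw.inf h
  have hl0 := l₀_nonneg hw.inf h
  have hη := hw.inf.η1
  have hν := hq.νp
  have hnm : 0 < q.nm := by linarith [hw.nm]
  have hνn : q.ν₁ < q.nm := by linarith [hq.ν4]
  have hM : 0 < q.M₀ := by linarith [hw.M1]
  have hη0 := hw.inf.η0
  have hl' : d.l₀ q ≤ 1 / 100 * q.R := by nlinarith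
  have et : d.uth q / 2 = d.l₀ q + 11 / 10 * q.R := by unfold Pk.uth; ring
  have eh : d.uth q = 2 * d.l₀ q + 22 / 10 * q.R := rfl
  have ea : d.uta q = 2 * d.l₀ q + 45 / 10 * q.R := rfl
  obtain ⟨m₁, a1, a2, W1, I1⟩ := win_one h.ph.isΦ hM hq.Cd hν hνn
  have hm0 : 0 ≤ m₁ := by
    refine le_trans (Real.log_nonneg ?_) a1
    rw [le_div_iff₀ hnm]
    linarith [hq.M]
  have ha1 : m₁ + T.b1 q + 1 ≤ d.uth q / 2 := by
    rw [et]
    have := hq.r1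
    have hmm : m₁ ≤ mM q := a2
    linarith
  have hN0 : q.M₀ ≤ deriv d.Φ (d.uth q) := h.N_ge _
  have hN1 : deriv d.Φ (d.uth q) ≤ (1 + q.ph.CT) * (q.ph.Cb * q.M₀) := by
    have hc := h.top.c1 (d.uth q) le_rfl
    rw [sub_self, Real.exp_zero, mul_one] at hc
    exact hc.trans (mul_le_mul_of_nonneg_left (h.ph.isΦ.n2 _) (by linarith [hw.CT]))
  have hNp : 0 < deriv d.Φ (d.uth q) := by linarith
  have lN1 := Real.log_le_log hNp hN1
  have lN0 : 0 ≤ Real.log (deriv d.Φ (d.uth q)) :=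
    Real.log_nonneg (by linarith [hw.M1])
  have lν : Real.log q.ν₁ ≤ 0 := Real.log_nonpos hν.le hq.ν1
  set m₂ := m2 (d.uth q) (deriv d.Φ (d.uth q)) q.ν₁ with hm2
  have hb0 : d.uth q + 1 ≤ m₂ := by
    rw [hm2, m2]
    have := hq.r3
    linarith
  have hb1 : m₂ + b2 q + 1 ≤ d.uta q := by
    rw [hm2, m2]
    have := hq.r4
    linarith
  have hb2 : m2 (d.uth q) (deriv d.Φ (d.uth q)) q.ν₁ + Real.log (q.nm / q.ν₁) ≤ d.uta q := by
    rw [← hm2]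
    unfold b2 at hb1
    linarith
  obtain ⟨W2, I2⟩ := win_two h.top hq.Ct hNp hν hνn (by rw [← hm2]; linarith) hb2
  refine ⟨m₁, m₂, hm0, a1, a2, ha1, ⟨?_, ?_, ?_, ?_⟩, hb0, hb1, W2, ?_⟩
  · intro u h1 h2
    rw [h.top.e1 u (by linarith), h.top.e2 u (by linarith)]
    exact W1.K u h1 h2
  · intro u h1 h2
    rw [h.top.e1 u (by linarith)]
    exact W1.lo u h1 h2
  · intro u h1 h2
    rw [h.top.e1 u (by linarith)]
    exact W1.hi u h1 h2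
  · intro j u h1 h2
    have e : d.Φ =ᶠ[𝓝 u] d.Φ₁ := by
      filter_upwards [Iio_mem_nhds (show u < d.uth q / 2 by linarith)] with v hv
      exact h.top.eq v (le_of_lt hv)
    rw [e.iteratedDeriv_eq (j + 1)]
    exact W1.bd j u h1 h2
  · intro u hu h1 h2
    by_cases c1 : u ≤ d.uth q / 2
    · left
      rw [h.top.e1 u c1] at h1 h2
      exact I1 u h1 h2
    · by_cases c2 : u ≤ d.uth q
      · exfalso
        have hc := h.top.c1 u c2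
        have e1 : 1 + q.ph.CT * Real.exp (u - d.uth q) ≤ 1 + q.ph.CT := by
          have : Real.exp (u - d.uth q) ≤ 1 := Real.exp_le_one_iff.2 (by linarith)
          nlinarith [hw.CT]
        have e2 : deriv d.Φ u ≤ (1 + q.ph.CT) * (q.ph.Cb * q.M₀) :=
          hc.trans (mul_le_mul e1 (h.ph.isΦ.n2 _) (hM.le.trans (h.ph.isΦ.n1 _))
            (by linarith [hw.CT]))
        have e3 : Real.exp q.R ≤ Real.exp u := Real.exp_le_exp.2 (by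
          rw [et] at c1
          linarith)
        have := hq.r2
        nlinarith
      · by_cases c3 : u ≤ d.uta q
        · right
          exact I2 u (not_le.1 c2).le c3 h1 h2
        · exfalso
          have := top_win hw h (u := u) (by linarith) hu
          have : 0 < q.nm * Real.exp u := mul_pos hnm (Real.exp_pos _)
          linarith

/-- **The windows on the package.** -/
theorem evWn (n : ℕ) : EvC fun q => ∀ d : Pk n, PkOk q d → ∃ m₁ m₂, Wn q d m₁ m₂ :=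
  evWC.mono fun _ hq _ h => wn_of hq h

end Vale.Agent.P088.R2.H354.T
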