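import Vale.Agent.P088.R2.H354.T.Cu
import Vale.Agent.P088.R2.H222.PkT
import Vale.Agent.P088.R2.H509.EP.Lit2

/-!
# P088, stage 3, zone T: derivatives of the flat quantities in window 1

`flat_bk`: two derivatives of `u = l(x) + l(y)`, `|x - y|²`, `tx`, `ty`. `pk_bk`: on the package.
-/

open Set Filter
open scoped ContDiff Topology Matrix

noncomputable section

namespace Vale.Agent.P088.R2.H354.T

open Vale.Agent.P088.LR Vale.Agent.P088.HY Vale.Agent.P088.R2.H222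
open Vale.Agent.P088.R2.H31.EP hiding qq qq_nonneg
open Vale.Agent.P088.R2.H464.Cu (mid dif rq)
open Vale.Agent.P088.R2.H475

variable {n : ℕ}

section flat

/-- The flat weight and the scale of its gradient. -/
def Wf (S Φ : ℝ → ℝ) (l : V n → ℝ) (z : VV n) : ℝ :=
  Φ (l z.1 + l z.2) + Real.exp (l z.1 + l z.2) * S (qq z)

def Nf (S Φ : ℝ → ℝ) (l : V n → ℝ) (z : VV n) : ℝ :=
  deriv Φ (l z.1 + l z.2) + Real.exp (l z.1 + l z.2) * S (qq z)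

theorem inv2_sm : ContDiffOn ℝ ∞ (fun s : ℝ => (s ^ 2)⁻¹) (Ioi 0) :=
  (contDiffOn_id.pow 2).inv fun x hx => by
    have : (0 : ℝ) < x := hx
    simp only [id]
    positivity

/-- The bound for a tube variable from the bounds of the derivatives of the weight. -/
theorem tube_bk {U : Set (VV n)} {f : Fin n → VV n → ℝ} {N : VV n → ℝ} {C t : ℝ}
    (hf : ∀ i, Bk 2 U C (f i)) (hN : Bk 2 U C N) (h1 : ∀ z ∈ U, 1 ≤ N z) (o : IsOpen U) {M : ℝ}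
    (hM : Sk 2 (Icc 1 C) (Ioi 0) M fun s : ℝ => (s ^ 2)⁻¹) (ht : 0 < t) :
    Bk 2 U (2 ^ 2 * (4 / (3 * t ^ 2)) * (2 ^ 2 * (n * (2 ^ 2 * C * C)) * cB 2 M C) + 1)
      (fun z => (4 * (∑ i, f i z ^ 2) / (t * N z) ^ 2 - 1) / 3) := by
  have s1 : Bk 2 U (∑ _i : Fin n, 2 ^ 2 * C * C) (fun z => ∑ i, f i z * f i z) :=
    Bk.sum (k := 2) Finset.univ o fun i _ => (hf i).mul (hf i)
  have s2 : Bk 2 U (cB 2 M C) (fun z => (N z ^ 2)⁻¹) := Bk.comp (S := fun s : ℝ => (s ^ 2)⁻¹) hM hN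
    fun z hz => ⟨h1 z hz, (le_abs_self _).trans (hN.val hz)⟩
  have s3 := (Bk.const (k := 2) (B := 4 / (3 * t ^ 2)) o (c := (4 / (3 * t ^ 2) : ℝ)) (by
    rw [Real.norm_eq_abs, abs_of_pos (by positivity)])).mul (s1.mul s2)
  have s4 := s3.sub (Bk.const (k := 2) (B := 1) o (c := (1 / 3 : ℝ)) (by norm_num))
  refine (s4.congr fun z hz => ?_).le ?_
  · have hz1 := h1 z hz
    have hz0 : N z ≠ 0 := by linarith
    have e : ∑ i, f i z ^ 2 = ∑ i, f i z * f i z := Finset.sum_congr rfl fun i _ => sq _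
    rw [e]
    field_simp
  · rw [Finset.sum_const, Finset.card_univ, Fintype.card_fin, nsmul_eq_mul]

/-- **Derivatives of the flat quantities.** -/
theorem flat_bk (n : ℕ) {r0 : ℝ} (h0 : 0 ≤ r0) (a b B : ℝ) {M1 M3 t : ℝ} (hM1 : 0 ≤ M1)
    (hM3 : 0 ≤ M3) (ht : 0 < t) : ∃ C : ℝ, 0 ≤ C ∧
    ∀ (Φ S : ℝ → ℝ) (O : Set (V n)) (U : Set (VV n)) (l : V n → ℝ),
      Sk 4 (Icc a b) univ M1 Φ → Sk 4 (Kq n r0) univ M3 S → Lk 4 O B l → IsOpen U →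
      (∀ z ∈ U, z.1 ∈ O) → (∀ z ∈ U, z.2 ∈ O) → (∀ z ∈ U, qq z ≤ r0 ^ 2) →
      (∀ z ∈ U, l z.1 + l z.2 ∈ Icc a b) → (∀ z ∈ U, 1 ≤ Nf S Φ l z) →
      Bk 2 U C (fun z : VV n => l z.1 + l z.2) ∧ Bk 2 U C (qq (n := n)) ∧
      Bk 2 U C (fun z => (4 * (∑ i, dx i (Wf S Φ l) z ^ 2) / (t * Nf S Φ l z) ^ 2 - 1) / 3) ∧
      Bk 2 U C (fun z => (4 * (∑ i, dy i (Wf S Φ l) z ^ 2) / (t * Nf S Φ l z) ^ 2 - 1) / 3) := by
  obtain ⟨M2, hM2, hE⟩ := exists_Sk Real.contDiff_exp (isCompact_Icc (a := a) (b := b)) 3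
  set Bu := |a| + |b| + 2 * |B| with hBu
  have hBu0 : 0 ≤ Bu := by positivity
  have hcB : ∀ {k M B}, 0 ≤ M → 0 ≤ cB k M B := fun h => h.trans (M_le_cB _ _ _)
  have h20 := c2_nonneg (n := n) (k := 3) h0
  set D := c2 n 3 r0 with hD
  set CG := 2 ^ 3 * cB 3 M2 Bu * cB 3 M3 D with hCG
  have hCG0 : 0 ≤ CG := by
    have := hcB (k := 3) (B := Bu) hM2
    have := hcB (k := 3) (B := D) hM3
    positivity
  set C0 := cB 3 M1 Bu + CG with hC0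
  have hC00 : 0 ≤ C0 := add_nonneg (hcB hM1) hCG0
  obtain ⟨M, hM, hI⟩ := exists_Sk_on (I := Icc 1 C0) isOpen_Ioi inv2_sm isCompact_Icc
    (fun x hx => lt_of_lt_of_le one_pos hx.1) 2
  set CT := 2 ^ 2 * (4 / (3 * t ^ 2)) * (2 ^ 2 * (n * (2 ^ 2 * C0 * C0)) * cB 2 M C0) + 1 with hCT
  have hCT0 : 0 ≤ CT := by
    have := hcB (k := 2) (B := C0) hM
    positivity
  refine ⟨Bu + D + CT, by positivity, ?_⟩
  intro Φ S O U l hΦ hS hl hU h1 h2 hq hi hN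
  have bu : Bk 3 U Bu (fun z : VV n => l z.1 + l z.2) :=
    bk_sum_l hU ⟨hl.o, hl.s, fun j a b => hl.b j a (by omega)⟩ h1 h2 hi
  have bq : Bk 3 U D (qq (n := n)) := bk_qq hU h0 hq
  have iq : ∀ z ∈ U, qq z ∈ Kq n r0 := by
    intro z hz
    have h1 := hq z hz
    have h2 := qq_nonneg z
    have h3 := sq_nonneg r0
    have hn : (0 : ℝ) ≤ n := Nat.cast_nonneg n
    unfold Kq
    exact ⟨by nlinarith, by nlinarith⟩
  have b1 : Bk 3 U (cB 3 M1 Bu) (fun z : VV n => Φ (l z.1 + l z.2)) :=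
    Bk.comp (hΦ.mono (by norm_num)) bu hi
  have b1' : Bk 3 U (cB 3 M1 Bu) (fun z : VV n => deriv Φ (l z.1 + l z.2)) :=
    Bk.comp hΦ.der bu hi
  have b2 : Bk 3 U (cB 3 M2 Bu) (fun z : VV n => Real.exp (l z.1 + l z.2)) := Bk.comp hE bu hi
  have b3 : Bk 3 U (cB 3 M3 D) (fun z : VV n => S (qq z)) :=
    Bk.comp (hS.mono (by norm_num)) bq iq
  have bG := b2.mul b3
  have bW : Bk 3 U C0 (Wf S Φ l) := b1.add bG
  have bN : Bk 2 U C0 (Nf S Φ l) := (b1'.add bG).mono (by norm_num) le_rfl Subset.rfl hU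
  have k1 : Bk 2 U CT (fun z => (4 * (∑ i, dx i (Wf S Φ l) z ^ 2) / (t * Nf S Φ l z) ^ 2 - 1) / 3) :=
    tube_bk (f := fun i => dx i (Wf S Φ l)) (fun i => Bk.ap bW (nrm_e1 i)) bN hN hU hI ht
  have k2 : Bk 2 U CT (fun z => (4 * (∑ i, dy i (Wf S Φ l) z ^ 2) / (t * Nf S Φ l z) ^ 2 - 1) / 3) :=
    tube_bk (f := fun i => dy i (Wf S Φ l)) (fun i => Bk.ap bW (nrm_e2 i)) bN hN hU hI ht
  exact ⟨bu.mono (by norm_num) (by linarith) Subset.rfl hU,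
    bq.mono (by norm_num) (by linarith) Subset.rfl hU, k1.le (by linarith), k2.le (by linarith)⟩

end flat

/-! ## On the package -/

theorem tc_data {k : ℕ} (hn : 1 ≤ n) {r0 A : Cst → ℝ} (h0 : ∀ q, 0 ≤ r0 q)
    {q : Cst} (ht : TC n k r0 A q) (d : Pk n) (hd : PkOk q d) :
    Cl (d.F q) (r0 q) (aT A q) (bT A q) (OT n q d) (UT d.l (r0 q) (aT A q) (bT A q)) d.l ∧
    Sk k (Icc (aT A q) (bT A q)) univ (M1f k q.ph.Cb q.M₀ (aT A q) (bT A q) q.ph.Cd) d.Φ ∧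
    Lk k (OT n q d) (2 * n) d.l := by
  have hR0 : 0 < q.R := by linarith [ht.R1]
  have hl := log_le_l₀ hd ht.R1 ht.Ck
  have hb : bT A q / 2 + 2 * n * r0 q ≤ d.l₀ q + 2 * q.R := by
    have := ht.lR
    linarith
  have hlog : Real.log q.R ≤ q.R := (Real.log_le_sub_one_of_pos hR0).trans (by linarith)
  have hnr : 0 ≤ 2 * n * r0 q := by
    have := h0 q
    positivity
  have hbu : bT A q < d.uth q / 2 := by
    have := ht.lR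
    unfold Pk.uth
    linarith [ht.R1]
  have hcl := UT_cl (a := aT A q) hn hd ht.σ0 ht.σ1 hR0 (h0 q) hb ht.nR ht.μ
  have hΦ : Sk k (Icc (aT A q) (bT A q)) univ
      (M1f k q.ph.Cb q.M₀ (aT A q) (bT A q) q.ph.Cd) d.Φ :=
    sk_congr (c := d.uth q / 2) (sk_slope hd.ph.isΦ ht.Cb.le (by linarith [ht.M0]) ht.Cd)
      hd.ok.Φs (fun u hu => hd.top.eq u hu.le) fun t h => lt_of_le_of_lt h.2 hbu
  have hLk : Lk k (OT n q d) (2 * n) d.l := by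
    rw [hd.lev.lit]
    exact ht.Lk d.kap d.Gs
  exact ⟨hcl, hΦ, hLk⟩

theorem bk_q (n : ℕ) {r0 : Cst → ℝ} (h0 : ∀ q, 0 ≤ r0 q) (A : Cst → ℝ) (q : Cst) :
    ∃ C : ℝ, 0 ≤ C ∧ (0 < q.rT → ContDiff ℝ ∞ (prS q.e₁) →
      ∀ (Φ : ℝ → ℝ) (O : Set (V n)) (U : Set (VV n)) (l : V n → ℝ),
      Sk 4 (Icc (aT A q) (bT A q)) univ (M1f 4 q.ph.Cb q.M₀ (aT A q) (bT A q) q.ph.Cd) Φ →
      Lk 4 O (2 * n) l → IsOpen U →
      (∀ z ∈ U, z.1 ∈ O) → (∀ z ∈ U, z.2 ∈ O) → (∀ z ∈ U, qq z ≤ r0 q ^ 2) →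
      (∀ z ∈ U, l z.1 + l z.2 ∈ Icc (aT A q) (bT A q)) →
      (∀ z ∈ U, 1 ≤ Nf (prS q.e₁) Φ l z) →
      Bk 2 U C (fun z : VV n => l z.1 + l z.2) ∧ Bk 2 U C (qq (n := n)) ∧
      Bk 2 U C (fun z => (4 * (∑ i, dx i (Wf (prS q.e₁) Φ l) z ^ 2) /
        (q.rT * Nf (prS q.e₁) Φ l z) ^ 2 - 1) / 3) ∧
      Bk 2 U C (fun z => (4 * (∑ i, dy i (Wf (prS q.e₁) Φ l) z ^ 2) /
        (q.rT * Nf (prS q.e₁) Φ l z) ^ 2 - 1) / 3)) := by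
  by_cases hp : ContDiff ℝ ∞ (prS q.e₁) ∧ 0 < q.rT
  · obtain ⟨hp, ht⟩ := hp
    obtain ⟨M3, hM3, hS⟩ := exists_Sk hp (I := Kq n (r0 q)) isCompact_Icc 4
    obtain ⟨C, hC, H⟩ := flat_bk n (h0 q) (aT A q) (bT A q) (2 * n)
      (M1 := max (M1f 4 q.ph.Cb q.M₀ (aT A q) (bT A q) q.ph.Cd) 0) (le_max_right _ _) hM3 ht
    refine ⟨C, hC, fun _ _ Φ O U l hΦ hl hU h1 h2 hq hi hN => ?_⟩
    exact H Φ (prS q.e₁) O U l (hΦ.leM (le_max_left _ _)) hS hl hU h1 h2 hq hi hN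
  · exact ⟨0, le_rfl, fun h1 h2 => absurd ⟨h2, h1⟩ hp⟩

/-- **Derivatives of the flat quantities on the package, window 1.** -/
theorem pk_bk {n : ℕ} (hn : 1 ≤ n) {r0 A : Cst → ℝ} (hr : NB_Cs r0)
    (hA : NB_Cs A) (h0 : ∀ q, 0 ≤ r0 q) (hA0 : ∀ q, 0 < A q) :
    ∃ C : Cst → ℝ, NB_ε C ∧ (∀ q, 0 ≤ C q) ∧ EvC fun q => ∀ d : Pk n, PkOk q d →
      Bk 2 (UT d.l (r0 q) (aT A q) (bT A q)) (C q) d.u0 ∧
      Bk 2 (UT d.l (r0 q) (aT A q) (bT A q)) (C q) (H31.EP.qq (n := n)) ∧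
      Bk 2 (UT d.l (r0 q) (aT A q) (bT A q)) (C q) (d.tx q q.rT) ∧
      Bk 2 (UT d.l (r0 q) (aT A q) (bT A q)) (C q) (d.ty q q.rT) := by
  choose C hC H using fun q => bk_q n h0 A q
  have rε : ∀ q : Cst, r0 q.b_ε = r0 q := fun q => (hr q.b_ε).symm.trans (hr q)
  have aε : ∀ q : Cst, A q.b_ε = A q := fun q => (hA q.b_ε).symm.trans (hA q)
  have haT : ∀ q : Cst, aT A q.b_ε = aT A q := fun q => by
    unfold aT
    rw [aε q]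
    rfl
  have hbT : ∀ q : Cst, bT A q.b_ε = bT A q := fun q => by
    unfold bT
    rw [aε q]
    rfl
  refine ⟨fun q => C q.b_ε, fun q => rfl, fun q => hC _, ?_⟩
  refine ((ev_TC (n := n) (k := 4) hn hr hA hA0).and (EvC.pos.and EvC.rad)).mono ?_
  rintro q ⟨ht, hp, hrad⟩ d hd
  have hrT : 0 < q.rT := hp.1.2.2.2.2.2.2.2.1
  have hM : 1 ≤ q.M₀ := hp.2.2.1
  have H' := H q.b_ε
  rw [haT q, hbT q, rε q] at H'
  obtain ⟨c1, c2, c3⟩ := tc_data hn h0 ht d hd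
  have hS : ContDiff ℝ ∞ (prS q.e₁) := hrad.pp.contDiff_Ph
  exact H' hrT hS d.Φ _ _ d.l c2 c3 c1.o c1.fst c1.snd c1.q c1.i fun z _ =>
    hM.trans (hd.NG_ge hrad z)

end Vale.Agent.P088.R2.H354.T
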