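import Vale.Agent.P088.R2.H354.T.Bd
import Vale.Agent.P088.R2.H354.T.Et
import Vale.Agent.P088.R2.H820.T.Ft

/-!
# P088, stage 3, zone T: the flat cut-offs

`F1`, `F2`, `F3`: the factors of the flat cut-off `chf` of helper820. `ps k`: larger cut-offs,
`ps 1 = 1` on the region `Of`, `ps 2 = 1` on the support of `ps 1`, `etx = 1` on that of `ps 2`.
-/

open Set Filter
open scoped ContDiff Topology Matrix

noncomputable section

namespace Vale.Agent.P088.R2.H354.T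

open Vale.Agent.P088.LR Vale.Agent.P088.HY
open Vale.Agent.P088.R2.H222 hiding qq qq_nonneg
open Vale.Agent.P088.R2.H31.EP
open Vale.Agent.P088.R2.H867.EP (fac)
open Real (smoothTransition)
open Vale.Agent.P088.R2.H820.W (chf)

variable {n : ℕ}

/-! ## The factors -/

/-- The radial factor. -/
def F1 (q : Cst) (τ : ℝ) : ℝ :=
  fac true ((τ - q.c₀ ^ 2) / (3 * q.c₀ ^ 2)) * fac false ((τ - q.p₁ ^ 2) / (q.p₂ ^ 2 - q.p₁ ^ 2))

/-- The factor of the tube. -/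
def F2 : ℝ → ℝ := fac false

/-- The factor of the window. -/
def F3 (β v : ℝ) : ℝ := smoothTransition (8 * v - 1) * smoothTransition (8 * (β - v) - 1)

/-- Larger factors. -/
def P1 (q : Cst) (k τ : ℝ) : ℝ :=
  smoothTransition ((100 * τ - (81 - 3 * k) * q.c₀ ^ 2) / (3 * q.c₀ ^ 2)) *
    smoothTransition (((100 + 2 * k) * bq q - 100 * τ) / (2 * bq q))

def P2 (k t : ℝ) : ℝ := smoothTransition (8 + k - 4 * t)

def P3 (β k v : ℝ) : ℝ := smoothTransition (8 * v + k) * smoothTransition (8 * (β - v) + k)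

/-- The larger cut-offs. -/
def ps (q : Cst) (β k : ℝ) (l : V n → ℝ) (m : ℝ) (T : VV n → ℝ) : VV n → ℝ :=
  chf (P1 q k) (P2 k) (P3 β k) l m T

/-- The flat cut-off. -/
def c0f (q : Cst) (β : ℝ) (l : V n → ℝ) (m : ℝ) (T : VV n → ℝ) : VV n → ℝ :=
  chf (F1 q) F2 (F3 β) l m T

section one

variable {q : Cst} {β k τ t v : ℝ}

theorem P1_one (hc : 0 < q.c₀) (hb : 0 < bq q) (h1 : (84 - 3 * k) * q.c₀ ^ 2 ≤ 100 * τ)
    (h2 : 100 * τ ≤ (98 + 2 * k) * bq q) : P1 q k τ = 1 := by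
  unfold P1
  rw [smoothTransition.one_of_one_le, smoothTransition.one_of_one_le, one_mul]
  · rw [le_div_iff₀ (by positivity)]; linarith
  · rw [le_div_iff₀ (by positivity)]; linarith

theorem P1_supp (hc : 0 < q.c₀) (hb : 0 < bq q) (h : P1 q k τ ≠ 0) :
    (81 - 3 * k) * q.c₀ ^ 2 ≤ 100 * τ ∧ 100 * τ ≤ (100 + 2 * k) * bq q := by
  unfold P1 at h
  constructor
  · by_contra hc'
    refine h ?_
    rw [smoothTransition.zero_of_nonpos, zero_mul]
    exact div_nonpos_of_nonpos_of_nonneg (by linarith) (by positivity)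
  · by_contra hc'
    refine h ?_
    rw [smoothTransition.zero_of_nonpos (x := ((100 + 2 * k) * bq q - 100 * τ) / (2 * bq q)),
      mul_zero]
    exact div_nonpos_of_nonpos_of_nonneg (by linarith) (by positivity)

theorem P2_one (h : 4 * t ≤ 7 + k) : P2 k t = 1 :=
  smoothTransition.one_of_one_le (by linarith)

theorem P2_supp (h : P2 k t ≠ 0) : 4 * t ≤ 8 + k := by
  by_contra hc
  exact h (smoothTransition.zero_of_nonpos (by linarith))

theorem P3_one (h1 : 1 - k ≤ 8 * v) (h2 : 8 * v ≤ 8 * β + k - 1) : P3 β k v = 1 := by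
  unfold P3
  rw [smoothTransition.one_of_one_le (by linarith), smoothTransition.one_of_one_le (by linarith),
    one_mul]

theorem P3_supp (h : P3 β k v ≠ 0) : -k ≤ 8 * v ∧ 8 * v ≤ 8 * β + k := by
  unfold P3 at h
  constructor
  · by_contra hc
    refine h ?_
    rw [smoothTransition.zero_of_nonpos (by linarith), zero_mul]
  · by_contra hc
    refine h ?_
    rw [smoothTransition.zero_of_nonpos (x := 8 * (β - v) + k) (by linarith), mul_zero]

theorem F1_supp (hc : 0 < q.c₀) (hp : q.p₁ ^ 2 < q.p₂ ^ 2) (h : F1 q τ ≠ 0) :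
    q.c₀ ^ 2 ≤ τ ∧ τ ≤ q.p₂ ^ 2 := by
  have fp := H867.EP.fac_pair
  unfold F1 at h
  obtain ⟨h1, h2⟩ := ne_zero_and_ne_zero_of_mul h
  constructor
  · by_contra hc'
    refine h1 (fp.t0 _ ?_)
    exact div_nonpos_of_nonpos_of_nonneg (by linarith) (by positivity)
  · by_contra hc'
    refine h2 (fp.f1 _ ?_)
    rw [le_div_iff₀ (by linarith)]
    linarith

theorem F2_supp (h : F2 t ≠ 0) : t ≤ 1 := by
  by_contra hc
  exact h (H867.EP.fac_pair.f1 _ (not_le.1 hc).le)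

theorem F3_one (h1 : 1 / 4 ≤ v) (h2 : v ≤ β - 1 / 4) : F3 β v = 1 := by
  unfold F3
  rw [smoothTransition.one_of_one_le (by linarith), smoothTransition.one_of_one_le (by linarith),
    one_mul]

theorem F3_supp (h : F3 β v ≠ 0) : 1 / 8 ≤ v ∧ v ≤ β - 1 / 8 := by
  unfold F3 at h
  constructor
  · by_contra hc
    refine h ?_
    rw [smoothTransition.zero_of_nonpos (by linarith), zero_mul]
  · by_contra hc
    refine h ?_
    rw [smoothTransition.zero_of_nonpos (x := 8 * (β - v) - 1) (by linarith), mul_zero]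

/-! ## Values and smoothness of the factors -/

theorem fac_mem (b : Bool) (t : ℝ) : 0 ≤ fac b t ∧ fac b t ≤ 1 :=
  ⟨(H867.EP.fac_pair.stp b).nn t, (H867.EP.fac_pair.stp b).le t⟩

theorem fac_sm (b : Bool) : ContDiff ℝ ∞ (fac b) := (H867.EP.fac_pair.stp b).sm

theorem F1_mem : 0 ≤ F1 q τ ∧ F1 q τ ≤ 1 := mul_mem (fac_mem _ _) (fac_mem _ _)

theorem F2_mem : 0 ≤ F2 t ∧ F2 t ≤ 1 := fac_mem _ _

theorem F3_mem : 0 ≤ F3 β v ∧ F3 β v ≤ 1 := mul_mem (st_mem _) (st_mem _)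

theorem P1_mem : 0 ≤ P1 q k τ ∧ P1 q k τ ≤ 1 := mul_mem (st_mem _) (st_mem _)

theorem P2_mem : 0 ≤ P2 k t ∧ P2 k t ≤ 1 := st_mem _

theorem P3_mem : 0 ≤ P3 β k v ∧ P3 β k v ≤ 1 := mul_mem (st_mem _) (st_mem _)

theorem st_cd {f : ℝ → ℝ} (hf : ContDiff ℝ ∞ f) : ContDiff ℝ ∞ fun x => smoothTransition (f x) :=
  smoothTransition.contDiff.comp hf

theorem F1_sm (q : Cst) : ContDiff ℝ ∞ (F1 q) :=
  ((fac_sm true).comp ((contDiff_id.sub contDiff_const).div_const _)).mul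
    ((fac_sm false).comp ((contDiff_id.sub contDiff_const).div_const _))

theorem F2_sm : ContDiff ℝ ∞ F2 := fac_sm false

theorem F3_sm (β : ℝ) : ContDiff ℝ ∞ (F3 β) :=
  (st_cd ((contDiff_const.mul contDiff_id).sub contDiff_const)).mul
    (st_cd ((contDiff_const.mul (contDiff_const.sub contDiff_id)).sub contDiff_const))

theorem P1_sm (q : Cst) (k : ℝ) : ContDiff ℝ ∞ (P1 q k) :=
  (st_cd (((contDiff_const.mul contDiff_id).sub contDiff_const).div_const _)).mul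
    (st_cd ((contDiff_const.sub (contDiff_const.mul contDiff_id)).div_const _))

theorem P2_sm (k : ℝ) : ContDiff ℝ ∞ (P2 k) :=
  st_cd (contDiff_const.sub (contDiff_const.mul contDiff_id))

theorem P3_sm (β k : ℝ) : ContDiff ℝ ∞ (P3 β k) :=
  (st_cd ((contDiff_const.mul contDiff_id).add contDiff_const)).mul
    (st_cd ((contDiff_const.mul (contDiff_const.sub contDiff_id)).add contDiff_const))

end one

/-! ## Products -/

section prod

variable {q : Cst} {β k m : ℝ} {l : V n → ℝ} {T : VV n → ℝ} {z : VV n} {G₁ G₂ G₃ : ℝ → ℝ}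

theorem chf_val : chf G₁ G₂ G₃ l m T z = G₁ (qq z) * (G₂ (T z) * G₃ (l z.1 + l z.2 - m)) := rfl

theorem chf_sm (h₁ : ContDiff ℝ ∞ G₁) (h₂ : ContDiff ℝ ∞ G₂) (h₃ : ContDiff ℝ ∞ G₃)
    (hl : ContDiff ℝ ∞ l) (hT : ContDiff ℝ ∞ T) : ContDiff ℝ ∞ (chf G₁ G₂ G₃ l m T) :=
  (h₁.comp qq_sm).mul ((h₂.comp hT).mul (h₃.comp
    (((hl.comp contDiff_fst).add (hl.comp contDiff_snd)).sub contDiff_const)))

theorem ps_mem : 0 ≤ ps q β k l m T z ∧ ps q β k l m T z ≤ 1 :=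
  mul_mem P1_mem (mul_mem P2_mem P3_mem)

theorem c0f_mem : 0 ≤ c0f q β l m T z ∧ c0f q β l m T z ≤ 1 :=
  mul_mem F1_mem (mul_mem F2_mem F3_mem)

theorem ps_one (hc : 0 < q.c₀) (hb : 0 < bq q) (h1 : (84 - 3 * k) * q.c₀ ^ 2 ≤ 100 * qq z)
    (h2 : 100 * qq z ≤ (98 + 2 * k) * bq q) (h3 : 4 * T z ≤ 7 + k)
    (h4 : 1 - k ≤ 8 * (l z.1 + l z.2 - m)) (h5 : 8 * (l z.1 + l z.2 - m) ≤ 8 * β + k - 1) :
    ps q β k l m T z = 1 := by
  unfold ps
  rw [chf_val, P1_one hc hb h1 h2, P2_one h3, P3_one h4 h5]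
  norm_num

/-- The closed region of `ps k`. -/
def Rk (q : Cst) (β k : ℝ) (l : V n → ℝ) (m : ℝ) (T : VV n → ℝ) : Set (VV n) :=
  {z | ((81 - 3 * k) * q.c₀ ^ 2 ≤ 100 * qq z ∧ 100 * qq z ≤ (100 + 2 * k) * bq q) ∧
    4 * T z ≤ 8 + k ∧ -k ≤ 8 * (l z.1 + l z.2 - m) ∧ 8 * (l z.1 + l z.2 - m) ≤ 8 * β + k}

theorem ps_supp (hc : 0 < q.c₀) (hb : 0 < bq q) (h : ps q β k l m T z ≠ 0) :
    z ∈ Rk q β k l m T := by
  unfold ps at h
  rw [chf_val] at h
  obtain ⟨h1, h⟩ := ne_zero_and_ne_zero_of_mul h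
  obtain ⟨h2, h3⟩ := ne_zero_and_ne_zero_of_mul h
  exact ⟨P1_supp hc hb h1, P2_supp h2, P3_supp h3⟩

theorem Rk_closed (hl : Continuous l) (hT : Continuous T) : IsClosed (Rk q β k l m T) := by
  have hq : Continuous (qq : VV n → ℝ) := qq_sm.continuous
  have hu : Continuous fun z : VV n => l z.1 + l z.2 :=
    (hl.comp continuous_fst).add (hl.comp continuous_snd)
  exact ((isClosed_le continuous_const (continuous_const.mul hq)).inter
    (isClosed_le (continuous_const.mul hq) continuous_const)).inter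
    ((isClosed_le (continuous_const.mul hT) continuous_const).inter
    ((isClosed_le continuous_const (continuous_const.mul (hu.sub continuous_const))).inter
    (isClosed_le (continuous_const.mul (hu.sub continuous_const)) continuous_const)))

theorem ps_ts (hc : 0 < q.c₀) (hb : 0 < bq q) (hl : Continuous l) (hT : Continuous T) :
    tsupport (ps q β k l m T) ⊆ Rk q β k l m T :=
  closure_minimal (fun _ hz => ps_supp hc hb hz) (Rk_closed hl hT)

/-- `ps (k + 1) = 1` on the region of `ps k`. -/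
theorem ps_next (hc : 0 < q.c₀) (hb : 0 < bq q) (h : z ∈ Rk q β k l m T) :
    ps q β (k + 1) l m T z = 1 := by
  obtain ⟨⟨h1, h2⟩, h3, h4, h5⟩ := h
  exact ps_one hc hb (by linarith) (by linarith) (by linarith) (by linarith) (by linarith)

/-- The region of the flat cut-off. -/
theorem c0f_supp (hc : 0 < q.c₀) (hb : 0 < bq q) (hp : q.p₁ ^ 2 < q.p₂ ^ 2)
    (hpb : q.p₂ ^ 2 ≤ bq q) (h : c0f q β l m T z ≠ 0) :
    (q.c₀ ^ 2 ≤ qq z ∧ qq z ≤ q.p₂ ^ 2) ∧ T z ≤ 1 ∧ 1 / 8 ≤ l z.1 + l z.2 - m ∧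
      l z.1 + l z.2 - m ≤ β - 1 / 8 := by
  unfold c0f at h
  rw [chf_val] at h
  obtain ⟨h1, h⟩ := ne_zero_and_ne_zero_of_mul h
  obtain ⟨h2, h3⟩ := ne_zero_and_ne_zero_of_mul h
  exact ⟨F1_supp hc hp h1, F2_supp h2, F3_supp h3⟩

theorem c0f_ts (hc : 0 < q.c₀) (hb : 0 < bq q) (hp : q.p₁ ^ 2 < q.p₂ ^ 2)
    (hpb : q.p₂ ^ 2 ≤ bq q) (hl : Continuous l) (hT : Continuous T) :
    tsupport (c0f q β l m T) ⊆ Rk q β 0 l m T := by
  refine closure_minimal (fun z hz => ?_) (Rk_closed hl hT)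
  obtain ⟨⟨h1, h2⟩, h3, h4, h5⟩ := c0f_supp hc hb hp hpb hz
  have := sq_nonneg q.c₀
  exact ⟨⟨by linarith, by linarith⟩, by linarith, by linarith, by linarith⟩

theorem Rk_mono {k' : ℝ} (hb : 0 < bq q) (hk : k ≤ k') (h : z ∈ Rk q β k l m T) :
    z ∈ Rk q β k' l m T := by
  obtain ⟨⟨h1, h2⟩, h3, h4, h5⟩ := h
  have := sq_nonneg q.c₀
  exact ⟨⟨by nlinarith, by nlinarith⟩, by linarith, by linarith, by linarith⟩

/-- Two derivatives of a product cut-off. -/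
theorem chf_bk (h₁ : ContDiff ℝ ∞ G₁) (h₂ : ContDiff ℝ ∞ G₂) (h₃ : ContDiff ℝ ∞ G₃)
    (C M : ℝ) : ∃ C' : ℝ, 0 ≤ C' ∧ ∀ (U : Set (VV n)) (l : V n → ℝ) (T : VV n → ℝ) (m : ℝ),
      0 ≤ m → m ≤ M → Bk 2 U C (fun z : VV n => l z.1 + l z.2) → Bk 2 U C (qq (n := n)) →
      Bk 2 U C T → Bk 2 U C' (chf G₁ G₂ G₃ l m T) := by
  obtain ⟨M₁, k1, S1⟩ := exists_Sk h₁ (isCompact_Icc (a := -C) (b := C)) 2
  obtain ⟨M₂, k2, S2⟩ := exists_Sk h₂ (isCompact_Icc (a := -C) (b := C)) 2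
  obtain ⟨M₃, k3, S3⟩ := exists_Sk h₃ (isCompact_Icc (a := -(C + M)) (b := C + M)) 2
  have hcB : ∀ {k M B}, 0 ≤ M → 0 ≤ cB k M B := fun h => h.trans (M_le_cB _ _ _)
  have q1 := hcB (k := 2) (B := C) k1
  have q2 := hcB (k := 2) (B := C) k2
  have q3 := hcB (k := 2) (B := C + M) k3
  refine ⟨2 ^ 2 * cB 2 M₁ C * (2 ^ 2 * cB 2 M₂ C * cB 2 M₃ (C + M)), by positivity, ?_⟩
  intro U l T m m0 mM hu hq hT
  have b1 := Bk.comp S1 hq fun z hz => abs_le.1 (hq.val hz)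
  have b2 := Bk.comp S2 hT fun z hz => abs_le.1 (hT.val hz)
  have hv : Bk 2 U (C + M) (fun z : VV n => l z.1 + l z.2 - m) :=
    hu.sub (Bk.const hu.o (by rw [Real.norm_eq_abs, abs_of_nonneg m0]; exact mM))
  have b3 := Bk.comp S3 hv fun z hz => abs_le.1 (hv.val hz)
  exact b1.mul (b2.mul b3)

end prod

end Vale.Agent.P088.R2.H354.T
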