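import Vale.Agent.P088.R2.H354.T.WinP
import Vale.Agent.P088.R2.H354.T.Ps
import Vale.Agent.P088.R2.H509.EP.TG

/-!
# P088, stage 3, zone T: the cut-offs of the leaves `T1`, `T2`

In a window: `ch T1 = F1(r²) F2(tx)`, `ch T2 = F1(r²) F2(ty)`. The two windows carry everything.
-/

open Set Filter
open scoped ContDiff Topology Matrix

noncomputable section

namespace Vale.Agent.P088.R2.H354.T

open Vale.Agent.P088.LR Vale.Agent.P088.HY
open Vale.Agent.P088.R2.H31.EP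
open Vale.Agent.P088.R2.H867.EP (fac fac_pair Pair)
open Vale.Agent.P088.R2.H464.Cu (rq)
open Vale.Agent.P088.R2.H509.TG

variable {n : ℕ} {q : Cst} {d : Pk n} {z : VV n}

theorem bq_p₃ (q : Cst) : bq q = p₃ q ^ 2 := rfl

/-- The remaining factors. -/
def rest (q : Cst) (d : Pk n) (z : VV n) : ℝ :=
  fac false (d.tinf q z) * fac false (d.VS q (d.u q z)) *
    fac false ((d.r2 z - (3 / 2 * q.p₁) ^ 2) / ((2 * q.p₁) ^ 2 - (3 / 2 * q.p₁) ^ 2))

theorem chT1_eq (q : Cst) (d : Pk n) (z : VV n) : d.ch q .T1 z =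
    F1 q (d.r2 z) * F2 (d.tx q q.rT z) * rest q d z := by
  have e : d.ch q .T1 z = ∏ i ∈ H867.EP.path .T1, Fl i (H867.EP.sd .T1 i) (d.cv q i z) := rfl
  rw [e]
  unfold H867.EP.path
  repeat rw [Finset.prod_insert (by decide)]
  rw [Finset.prod_singleton]
  show fac false (d.tinf q z) * (fac false ((d.VS q (d.u q z) - 0) / 1) *
    (fac true ((2 * rq (gi d.s₁) z - q.c₀ ^ 2) / (3 * q.c₀ ^ 2)) *
    (fac false ((2 * rq (gi d.s₁) z - (3 / 2 * q.p₁) ^ 2) /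
      ((2 * q.p₁) ^ 2 - (3 / 2 * q.p₁) ^ 2)) *
    (fac false ((2 * rq (gi d.s₁) z - q.p₁ ^ 2) / (q.p₂ ^ 2 - q.p₁ ^ 2)) *
    fac false (d.tx q q.rT z))))) = _
  have er : d.r2 z = 2 * rq (gi d.s₁) z := rfl
  unfold F1 F2 rest
  rw [er, sub_zero, div_one]
  ring

theorem chT2_eq (q : Cst) (d : Pk n) (z : VV n) : d.ch q .T2 z =
    F1 q (d.r2 z) * F2 (d.ty q q.rT z) * (fac true (d.tx q q.rT z) * rest q d z) := by
  have e : d.ch q .T2 z = ∏ i ∈ H867.EP.path .T2, Fl i (H867.EP.sd .T2 i) (d.cv q i z) := rfl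
  rw [e]
  unfold H867.EP.path
  repeat rw [Finset.prod_insert (by decide)]
  rw [Finset.prod_singleton]
  show fac false (d.tinf q z) * (fac false ((d.VS q (d.u q z) - 0) / 1) *
    (fac true ((2 * rq (gi d.s₁) z - q.c₀ ^ 2) / (3 * q.c₀ ^ 2)) *
    (fac false ((2 * rq (gi d.s₁) z - (3 / 2 * q.p₁) ^ 2) /
      ((2 * q.p₁) ^ 2 - (3 / 2 * q.p₁) ^ 2)) *
    (fac false ((2 * rq (gi d.s₁) z - q.p₁ ^ 2) / (q.p₂ ^ 2 - q.p₁ ^ 2)) *
    (fac true (d.tx q q.rT z) * fac false (d.ty q q.rT z)))))) = _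
  have er : d.r2 z = 2 * rq (gi d.s₁) z := rfl
  unfold F1 F2 rest
  rw [er, sub_zero, div_one]
  ring

theorem fac_f0 {t : ℝ} (h : t ≤ 0) : fac false t = 1 := H867.EP.cs_zero h

theorem fac_t1 {t : ℝ} (h : 1 ≤ t) : fac true t = 1 := H867.EP.sn_one h

theorem p12 (hr : H509.Rad.Ok q.e₁ rp) : q.p₁ ^ 2 < q.p₂ ^ 2 := by
  have h1 := Cst.p₁_lt hr
  have h2 := Cst.p₁_ge hr
  nlinarith

theorem p2b (hr : H509.Rad.Ok q.e₁ rp) : q.p₂ ^ 2 ≤ bq q := by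
  have h1 := p₂_lt hr
  have h2 := p₂_ge hr
  rw [bq_p₃]
  nlinarith

theorem bq_pos (hr : H509.Rad.Ok q.e₁ rp) : 0 < bq q := by
  have h2 := p₃_ge hr
  rw [bq_p₃]
  positivity

/-- In the region of the tubes the other cuts are off. -/
theorem rest_one (hq : GT n q) (h : PkOk q d) (hz : TR q d z) : rest q d z = 1 := by
  unfold rest
  rw [fac_f0 (hz.tinf hq h).le, fac_f0 (hz.VS hq h).le, fac_f0, one_mul, one_mul]
  have h1 := hz.far hq h
  have h2 := Cst.p₁_ge hq.gc.rad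
  exact div_nonpos_of_nonpos_of_nonneg (by linarith) (by nlinarith)

/-- The two tubes. -/
structure Tu (q : Cst) (d : Pk n) (T χ : VV n → ℝ) : Prop where
  /-- the region -/
  lt : ∀ z, T z < 2 → q.c₀ ^ 2 / 4 ≤ qq z → qq z ≤ p₃ q ^ 2 → d.u0 z ≤ 2 * d.l₀ q + 23 / 5 * q.R →
    deriv d.Φ (d.u0 z) ≤ q.nm * Real.exp (d.u0 z) → TR q d z
  /-- the cut-off in the region -/
  eq : ∀ z, T z < 2 → TR q d z → χ z = F1 q (d.r2 z) * F2 (T z)
  /-- the support of the cut-off -/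
  su : ∀ z, χ z ≠ 0 → TR q d z ∧ F1 q (d.r2 z) * F2 (T z) ≠ 0
  ze : ∀ z, F1 q (d.r2 z) * F2 (T z) = 0 → χ z = 0
  Ts : ContDiff ℝ ∞ T
  χs : ContDiff ℝ ∞ χ

/-- The first tube. -/
theorem tu1 (hq : GT n q) (h : PkOk q d) (hL : LitSm q d) (hM : q.nm ≤ q.M₀) :
    Tu q d (d.tx q q.rT) (d.ch q .T1) where
  lt z h1 h2 h3 h4 h5 := tr_of hq h h2 h3 h4 h5 hM (Or.inl h1)
  eq z _ h2 := by rw [chT1_eq, rest_one hq h h2, mul_one]
  su z hz := by
    refine ⟨(alive_T1 hq h hL hz).1, fun h0 => hz ?_⟩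
    rw [chT1_eq, h0, zero_mul]
  ze z hz := by rw [chT1_eq, hz, zero_mul]
  Ts := hL.X .T1
  χs := hL.ch .T1

/-- The second tube. -/
theorem tu2 (hq : GT n q) (h : PkOk q d) (hL : LitSm q d) (hM : q.nm ≤ q.M₀) :
    Tu q d (d.ty q q.rT) (d.ch q .T2) where
  lt z h1 h2 h3 h4 h5 := tr_of hq h h2 h3 h4 h5 hM (Or.inr h1)
  eq z h1 h2 := by
    rw [chT2_eq, rest_one hq h h2, fac_t1 (tx_of_ty hq h h2 (ty_lt2 hq h h1))]
    ring
  su z hz := by
    refine ⟨(alive_T2 hq h hL hz).1, fun h0 => hz ?_⟩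
    rw [chT2_eq, h0, zero_mul]
  ze z hz := by rw [chT2_eq, hz, zero_mul]
  Ts := hL.X .T2
  χs := hL.ch .T2

/-! ## The windows -/

section win

variable {T χ : VV n → ℝ} {m₁ m₂ : ℝ}

/-- The part of the cut-off in a window. -/
def wχ (d : Pk n) (χ : VV n → ℝ) (β m : ℝ) (z : VV n) : ℝ := χ z * F3 β (d.u0 z - m)

/-- **In a window** `χ F3 = F1(r²) F2(T) F3`. -/
theorem wχ_eq (hq : GT n q) (h : PkOk q d) (ht : Tu q d T χ) {m β : ℝ}
    (hu : ∀ u, m ≤ u → u ≤ m + β → u ≤ 2 * d.l₀ q + 23 / 5 * q.R)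
    (hi : ∀ u, m ≤ u → u ≤ m + β → deriv d.Φ u ≤ q.nm * Real.exp u) (z : VV n) :
    wχ d χ β m z = F1 q (d.r2 z) * F2 (T z) * F3 β (d.u0 z - m) := by
  unfold wχ
  by_cases h3 : F3 β (d.u0 z - m) = 0
  · rw [h3]; ring
  by_cases h1 : F1 q (d.r2 z) * F2 (T z) = 0
  · rw [ht.ze z h1, h1]
  obtain ⟨a1, a2⟩ := ne_zero_and_ne_zero_of_mul h1
  obtain ⟨b1, b2⟩ := F1_supp hq.c0 (p12 hq.gc.rad) a1
  obtain ⟨c1, c2, c3⟩ := qq_bd hq h b2 b1
  have b3 := F2_supp a2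
  obtain ⟨d1, d2⟩ := F3_supp h3
  have e1 : m ≤ d.u0 z := by linarith
  have e2 : d.u0 z ≤ m + β := by linarith
  have hc := sq_nonneg q.c₀
  have hz : TR q d z := ht.lt z (by linarith) (by linarith) c2 (hu _ e1 e2) (hi _ e1 e2)
  rw [ht.eq z (by linarith) hz]

/-- **The two windows carry everything.** -/
theorem wχ_sum (hq : GT n q) (h : PkOk q d) (ht : Tu q d T χ) (hw : Wn q d m₁ m₂) (z : VV n) :
    χ z ^ 2 = wχ d χ (b1 q) m₁ z ^ 2 + wχ d χ (b2 q) m₂ z ^ 2 := by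
  by_cases h0 : χ z = 0
  · unfold wχ
    rw [h0]
    ring
  obtain ⟨hz, -⟩ := ht.su z h0
  have hE := Real.exp_pos (d.u0 z)
  have e2 : (2 : ℝ) ≤ Real.exp 2 := by
    have := Real.add_one_le_exp (2 : ℝ)
    linarith
  have hN := h.N_pos hq.gc.M1 (d.u0 z)
  have hlo : 2 * q.ν₁ * Real.exp (d.u0 z) ≤ deriv d.Φ (d.u0 z) := by
    refine le_trans ?_ (hz.lo hq h)
    have := mul_pos hq.wc.ν₁ hE
    nlinarith
  have hup : deriv d.Φ (d.u0 z) ≤ q.nm / 2 * Real.exp (d.u0 z) := by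
    have := hz.up hq h
    nlinarith
  have hub : d.u0 z ≤ d.utb q := by
    have := hz.u_lt hq h
    have hR := hq.wc.R
    unfold Pk.utb
    linarith
  have hthR : d.uth q / 2 < d.uth q := by
    have hl := (H404.INF.lvG hq.gc.inf h).l0
    have hR := hq.gc.inf.R0
    unfold Pk.uth
    linarith
  have g1 := hw.a1
  have g2 := hw.b0
  unfold wχ
  rcases hw.inv _ hub hlo hup with ⟨a1, a2⟩ | ⟨a1, a2⟩
  · have k1 : F3 (b1 q) (d.u0 z - m₁) = 1 := F3_one (by linarith) (by linarith)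
    have k2 : F3 (b2 q) (d.u0 z - m₂) = 0 := by
      by_contra hc
      have := (F3_supp hc).1
      linarith
    rw [k1, k2]
    ring
  · have k2 : F3 (b2 q) (d.u0 z - m₂) = 1 := F3_one (by linarith) (by linarith)
    have k1 : F3 (b1 q) (d.u0 z - m₁) = 0 := by
      by_contra hc
      have := (F3_supp hc).2
      linarith
    rw [k1, k2]
    ring

end win

end Vale.Agent.P088.R2.H354.T
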