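import Vale.Agent.P088.R2.H354.T.Nm
import Vale.Agent.P088.R2.H820.T.Fl
import Vale.Agent.P088.R2.H509.E.PT
import Vale.Agent.P088.R2.H338.C.TubS

/-!
# P088, stage 3: the zone theorems of the tubes `T1`, `T2`

`zoneT1`, `zoneT2 : ZoneThm n (ch T1) (MT1 (cTz q) (Na d) · ch T1 ²) (coT1 (CTz q) (Na d) etx)`.
-/

open Set Filter MeasureTheory
open scoped ContDiff Topology Matrix

set_option linter.unusedSectionVars false

noncomputable section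

namespace Vale.Agent.P088.R2.H354.T

open Vale.Agent.P088.LR Vale.Agent.P088.HY
open Vale.Agent.P088.R2.H31.EP
open Vale.Agent.P088.R2.H509.TG
open Vale.Agent.P088.R2.H354.E
open Vale.Agent.P088.R2.H551.E
open Vale.Agent.P088.R2.H644.Ch (fx fy)
open Vale.Agent.P088.R2.H338.TC (Na)
open Vale.Agent.P088.R2.H464.Cu (sx sy)

variable {n : ℕ} {q : Cst} {d : Pk n} {T χ et : VV n → ℝ} {m₁ m₂ m β c C : ℝ} {p₁ p₂ : ℕ}

/-! ## The flat zones -/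

/-- A flat zone in a window. -/
def FZW (q : Cst) (d : Pk n) (T : VV n → ℝ) (β m : ℝ) (p₁ p₂ : ℕ) (c C : ℝ) : Prop :=
  Zone (fx n) (fy n) univ (fun _ => 1) (fun _ => 0) (fun _ => 0) (d.W0 q) (c0f q β d.l m T)
    (Kc (c0f q β d.l m T) 1 (c * Real.exp m) (c * Real.exp m) (c * Real.exp m ^ (p₁ + 1))
      (c * Real.exp m ^ (p₂ + 1)))
    (Kc (ps q β 1 d.l m T) (C / √(Real.exp m)) (C * √(Real.exp m)) (C * √(Real.exp m))
      (C * (Real.exp m ^ p₁ * √(Real.exp m))) (C * (Real.exp m ^ p₂ * √(Real.exp m))))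

theorem ps_OT (hc : 0 < q.c₀) (hb : 0 < bq q) {z : VV n} (hz : z ∈ H820.Fl.OT q d β m T) :
    1 ≤ |ps q β 1 d.l m T z| := by
  obtain ⟨h1, h2, h3, h4, h5⟩ := hz
  have h1' : 81 / 100 * q.c₀ ^ 2 < qq z := h1
  have h2' : qq z < bq q := h2
  rw [ps_one hc hb (by linarith) (by linarith) (by linarith) (by linarith) (by linarith), abs_one]

theorem fzw_x (hc : 0 < q.c₀) (hb : 0 < bq q) (hl : ContDiff ℝ ∞ d.l)
    (hT : ContDiff ℝ ∞ (d.tx q q.rT)) (h : H820.Fl.FLT q d β m c C) :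
    FZW q d (d.tx q q.rT) β m 1 2 c C := by
  have := h.x (ps q β 1 d.l m (d.tx q q.rT))
    (chf_sm (P1_sm q 1) (P2_sm 1) (P3_sm _ 1) hl hT).continuous fun z hz => ps_OT hc hb hz
  unfold FZW
  rw [pow_one]
  exact this

theorem fzw_y (hc : 0 < q.c₀) (hb : 0 < bq q) (hl : ContDiff ℝ ∞ d.l)
    (hT : ContDiff ℝ ∞ (d.ty q q.rT)) (h : H820.Fl.FLT q d β m c C) :
    FZW q d (d.ty q q.rT) β m 2 1 c C := by
  have := h.y (ps q β 1 d.l m (d.ty q q.rT))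
    (chf_sm (P1_sm q 1) (P2_sm 1) (P3_sm _ 1) hl hT).continuous fun z hz => ps_OT hc hb hz
  unfold FZW
  rw [pow_one]
  exact this

/-! ## The numbers of the transfer -/

/-- The bound of `e^m` in window 1. -/
def EM (q : Cst) : ℝ := Real.exp |mM q|

theorem EM_ge (q : Cst) : 1 ≤ EM q := Real.one_le_exp (abs_nonneg _)

/-- The bound of `Kt`. -/
def KM (n : ℕ) (C' c C : ℝ) (q : Cst) : ℝ :=
  Kt n (1 + (n + 4 * n ^ 2) * C' ^ 2) |C| (|c| * EM q ^ 3) (|c| * EM q ^ 3) (|c| * EM q ^ 3)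
    (|c| * EM q ^ 3) (|C| * EM q) (|C| * EM q)

theorem KM_nn (n : ℕ) (C' c C : ℝ) (q : Cst) : 0 ≤ KM n C' c C q := by
  unfold KM Kt
  have := EM_ge q
  positivity

/-- The tolerance. -/
def eN (n : ℕ) (Cp C' c C : ℝ) (q : Cst) : ℝ := 1 / (4 * Cp * (KM n C' c C q + 1) * (YT q * EM q))

theorem eN_pos {Cp C' : ℝ} (hCp : 1 ≤ Cp) : 0 < eN n Cp C' c C q := by
  have h1 := KM_nn n C' c C q
  have h2 := YT_ge q
  have h3 := EM_ge q
  unfold eN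
  have : 0 < Cp := by linarith
  positivity

theorem K_num {Cp C' E : ℝ} (hCp : 1 ≤ Cp) (hE : 1 ≤ E) (hEM : E ≤ EM q)
    (hc : 0 ≤ c) (hC : 0 ≤ C) (hp₁ : p₁ ≤ 2) (hp₂ : p₂ ≤ 2) :
    Cp * eN n Cp C' c C q ≤ 1 / 2 ∧
    0 ≤ Cp * eN n Cp C' c C q * Kt n (1 + (n + 4 * n ^ 2) * C' ^ 2) (C / √E) (c * E) (c * E)
      (c * E ^ (p₁ + 1)) (c * E ^ (p₂ + 1)) (C * √E) (C * √E) * 2 ∧
    ∀ N, 1 ≤ N → N ≤ YT q * E →
      Cp * eN n Cp C' c C q * Kt n (1 + (n + 4 * n ^ 2) * C' ^ 2) (C / √E) (c * E) (c * E)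
      (c * E ^ (p₁ + 1)) (c * E ^ (p₂ + 1)) (C * √E) (C * √E) * 2 ≤ 1 / √N := by
  have h1 := KM_nn n C' c C q
  have h2 := YT_ge q
  have h3 := EM_ge q
  have hE0 : 0 < E := by linarith
  have sE : 1 ≤ √E := by rw [← Real.sqrt_one]; exact Real.sqrt_le_sqrt hE
  have sE2 : √E ≤ E := by
    rw [Real.sqrt_le_left hE0.le]
    nlinarith
  have hEp : ∀ k, k ≤ 3 → E ^ k ≤ EM q ^ 3 := fun k hk =>
    (pow_le_pow_left₀ hE0.le hEM k).trans (pow_le_pow_right₀ h3 hk)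
  have hE1 : E ≤ EM q ^ 3 := by
    have := hEp 1 (by norm_num)
    rwa [pow_one] at this
  have hK : Kt n (1 + (n + 4 * n ^ 2) * C' ^ 2) (C / √E) (c * E) (c * E)
      (c * E ^ (p₁ + 1)) (c * E ^ (p₂ + 1)) (C * √E) (C * √E) ≤ KM n C' c C q := by
    unfold KM
    rw [abs_of_nonneg hc, abs_of_nonneg hC]
    refine Kt_le (by positivity) (by positivity) (div_le_self hC sE)
      (mul_le_mul_of_nonneg_left hE1 hc) (mul_le_mul_of_nonneg_left hE1 hc)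
      (mul_le_mul_of_nonneg_left (hEp _ (by omega)) hc)
      (mul_le_mul_of_nonneg_left (hEp _ (by omega)) hc)
      (mul_le_mul_of_nonneg_left (sE2.trans hEM) hC)
      (mul_le_mul_of_nonneg_left (sE2.trans hEM) hC)
  have hK0 : 0 ≤ Kt n (1 + (n + 4 * n ^ 2) * C' ^ 2) (C / √E) (c * E) (c * E)
      (c * E ^ (p₁ + 1)) (c * E ^ (p₂ + 1)) (C * √E) (C * √E) := by
    unfold Kt
    positivity
  set K := Kt n (1 + (n + 4 * n ^ 2) * C' ^ 2) (C / √E) (c * E) (c * E)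
      (c * E ^ (p₁ + 1)) (c * E ^ (p₂ + 1)) (C * √E) (C * √E) with hKd
  set P := KM n C' c C q + 1 with hP
  have hP1 : 1 ≤ P := by linarith
  have hCp0 : 0 < Cp := by linarith
  have hYE : 1 ≤ YT q * EM q := by nlinarith
  have hYE0 : 0 < YT q * EM q := by linarith
  have e1 : Cp * eN n Cp C' c C q = 1 / (4 * P * (YT q * EM q)) := by
    unfold eN
    rw [← hP]
    field_simp
  have hPY : 1 ≤ P * (YT q * EM q) := by nlinarith
  have e2 : 0 < 1 / (4 * P * (YT q * EM q)) := by positivity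
  rw [e1]
  refine ⟨?_, by positivity, fun N hN hNY => ?_⟩
  · rw [div_le_div_iff₀ (by positivity) (by norm_num)]
    nlinarith
  · have hN0 : 0 < N := by linarith
    have sN : 0 < √N := Real.sqrt_pos.2 hN0
    have sN2 : √N ≤ N := by
      rw [Real.sqrt_le_left hN0.le]
      nlinarith
    have k1 : N ≤ YT q * EM q := hNY.trans (mul_le_mul_of_nonneg_left hEM (by linarith))
    have k2 : 1 / (4 * P * (YT q * EM q)) * K * 2 = K / P * (1 / (2 * (YT q * EM q))) := by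
      field_simp
      ring
    have k3 : K / P ≤ 1 := by
      rw [div_le_one (by linarith)]
      linarith
    rw [k2]
    calc K / P * (1 / (2 * (YT q * EM q))) ≤ 1 * (1 / (2 * (YT q * EM q))) :=
          mul_le_mul_of_nonneg_right k3 (by positivity)
      _ = 1 / (2 * (YT q * EM q)) := one_mul _
      _ ≤ 1 / √N := one_div_le_one_div_of_le sN (by linarith)

/-! ## The slope in the windows -/

/-- The relations at a point of a window. -/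
structure PtW (q : Cst) (d : Pk n) (m : ℝ) (z : VV n) : Prop where
  rt : 3 / 4 * q.ν₁ ≤ rt d z ∧ rt d z ≤ 3 / 2 * q.nm
  N1 : 1 ≤ Na d z
  EN : Real.exp m ≤ XT q * Na d z
  NE : Na d z ≤ YT q * Real.exp m

theorem b2_le (hν : 0 < q.ν₁) (hn : q.ν₁ < q.nm) : 0 ≤ b2 q ∧ b2 q ≤ b1 q := by
  have h : 0 ≤ Real.log (q.nm / q.ν₁) := Real.log_nonneg (by rw [le_div_iff₀ hν]; linarith)
  unfold b1 b2
  exact ⟨h, by linarith⟩

theorem ptw (hν : 0 < q.ν₁) (hn : q.ν₁ < q.nm) (hM : 1 ≤ q.M₀) (h : PkOk q d) (hβ : β ≤ b1 q)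
    {z : VV n} (h1 : m - 1 / 4 ≤ d.u0 z) (h2 : d.u0 z ≤ m + β + 1 / 4)
    (hr : 3 / 4 * q.ν₁ * Real.exp (d.u0 z) ≤ deriv d.Φ (d.u0 z) ∧
      deriv d.Φ (d.u0 z) ≤ 3 / 2 * q.nm * Real.exp (d.u0 z)) : PtW q d m z := by
  have hE := Real.exp_pos (d.u0 z)
  obtain ⟨k1, k2⟩ := NE_of hν (hν.trans hn) h1 h2 hβ hr.1 hr.2
  refine ⟨⟨?_, ?_⟩, ?_, k1, k2⟩
  · show _ ≤ deriv d.Φ (d.u0 z) / Real.exp (d.u0 z)
    rw [le_div_iff₀ hE]
    exact hr.1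
  · show deriv d.Φ (d.u0 z) / Real.exp (d.u0 z) ≤ _
    rw [div_le_iff₀ hE]
    exact hr.2
  · exact hM.trans (h.N_ge _)

theorem rk_u {k : ℝ} {z : VV n} (hk : k ≤ 2) (hz : z ∈ Rk q β k d.l m T) :
    m - 1 / 4 ≤ d.u0 z ∧ d.u0 z ≤ m + β + 1 / 4 := by
  obtain ⟨-, -, h4, h5⟩ := hz
  have e : d.u0 z = d.l z.1 + d.l z.2 := rfl
  rw [e]
  constructor <;> linarith

theorem ptw1 (hq : GT n q) (h : PkOk q d) (hw : Wn q d m₁ m₂) (hν : q.ν₁ < q.nm) {k : ℝ}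
    {z : VV n} (hk : k ≤ 2) (hz : z ∈ Rk q (b1 q) k d.l m₁ T) : PtW q d m₁ z := by
  obtain ⟨a1, a2⟩ := rk_u hk hz
  exact ptw hq.wc.ν₁ hν hq.gc.M1 h le_rfl a1 a2 (ratio1 hq h hw a1 a2 hν)

theorem ptw2 (hq : GT n q) (h : PkOk q d) (hw : Wn q d m₁ m₂) (hν : q.ν₁ < q.nm) {k : ℝ}
    {z : VV n} (hk : k ≤ 2) (hz : z ∈ Rk q (b2 q) k d.l m₂ T) : PtW q d m₂ z := by
  obtain ⟨a1, a2⟩ := rk_u hk hz
  exact ptw hq.wc.ν₁ hν hq.gc.M1 h (b2_le hq.wc.ν₁ hν).2 a1 a2 (ratio2 hq h hw a1 a2 hν)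

/-- `wχ` lives in the window. -/
theorem wχ_u {z : VV n} (hz : wχ d χ β m z ≠ 0) : m - 1 / 4 ≤ d.u0 z ∧ d.u0 z ≤ m + β + 1 / 4 := by
  obtain ⟨-, h⟩ := ne_zero_and_ne_zero_of_mul hz
  obtain ⟨h1, h2⟩ := F3_supp h
  constructor <;> linarith

/-! ## The letters -/

/-- The constant of the margins. -/
def cZ (c : ℝ) (q : Cst) : ℝ := c / (2 * YT q ^ 3)

/-- The constant of the costs. -/
def CZ (C : ℝ) (q : Cst) : ℝ := 2 * C * (YT q + XT q ^ 3) + 1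

/-- The condition on the cut-off of the costs. -/
structure EtOk (q : Cst) (d : Pk n) (T et : VV n → ℝ) : Prop where
  ct : Continuous et
  one : ∀ z, 3 / 4 * q.c₀ ^ 2 ≤ qq z → qq z ≤ 21 / 20 * bq q → T z ≤ 5 / 2 →
    3 / 4 * q.ν₁ ≤ rt d z → rt d z ≤ 3 / 2 * q.nm → d.u0 z ≤ d.uta q + 1 / 2 → et z = 1

theorem et_one {k : ℝ} {z : VV n} (he : EtOk q d T et) (hb : 0 < bq q)
    (hk : k ≤ 2) (hz : z ∈ Rk q β k d.l m T) (hp : PtW q d m z)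
    (hu : m + β + 1 / 4 ≤ d.uta q + 1 / 2) : et z = 1 := by
  obtain ⟨a1, a2⟩ := rk_u hk hz
  obtain ⟨⟨h1, h2⟩, h3, -, -⟩ := hz
  have hc := sq_nonneg q.c₀
  exact he.one z (by nlinarith) (by nlinarith) (by linarith) hp.rt.1 hp.rt.2 (by linarith)

/-- The margins at a point. -/
theorem mar_pt {X x y E₁ E₂ N c' c₁ c₂ : ℝ} (hX : X ^ 2 = x ^ 2 + y ^ 2)
    (h1 : x ≠ 0 → c' * N ≤ c₁ * E₁) (h2 : y ≠ 0 → c' * N ≤ c₂ * E₂) :
    X ^ 2 * (c' * N) ≤ x ^ 2 * (c₁ * E₁) + y ^ 2 * (c₂ * E₂) := by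
  rw [hX, add_mul]
  refine add_le_add ?_ ?_
  · by_cases h : x = 0
    · rw [h]; simp
    · exact mul_le_mul_of_nonneg_left (h1 h) (sq_nonneg _)
  · by_cases h : y = 0
    · rw [h]; simp
    · exact mul_le_mul_of_nonneg_left (h2 h) (sq_nonneg _)

/-- The costs at a point. -/
theorem cos_pt {x y A B D e : ℝ} (hD : 0 ≤ D) (hx1 : x ^ 2 ≤ 1) (hy1 : y ^ 2 ≤ 1)
    (h1 : x ≠ 0 → A ≤ D ∧ e = 1 ∧ y = 0) (h2 : y ≠ 0 → B ≤ D ∧ e = 1) :
    x ^ 2 * A + y ^ 2 * B ≤ e ^ 2 * D := by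
  by_cases h : x = 0
  · rw [h]
    by_cases k : y = 0
    · rw [k]
      have := mul_nonneg (sq_nonneg e) hD
      simpa using this
    · obtain ⟨a1, a2⟩ := h2 k
      rw [a2]
      have : y ^ 2 * B ≤ y ^ 2 * D := mul_le_mul_of_nonneg_left a1 (sq_nonneg _)
      nlinarith
  · obtain ⟨a1, a2, a3⟩ := h1 h
    rw [a2, a3]
    have : x ^ 2 * A ≤ x ^ 2 * D := mul_le_mul_of_nonneg_left a1 (sq_nonneg _)
    nlinarith

theorem MTg_ct {N : VV n → ℝ} (hχ : Continuous χ) (hN : Continuous N) :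
    ((MTg p₁ p₂ c N).sm fun z => χ z ^ 2).Ct univ := by
  have h := hχ.pow 2
  exact ⟨(h.mul continuous_const).continuousOn, (h.mul (continuous_const.mul hN)).continuousOn,
    (h.mul (continuous_const.mul hN)).continuousOn, (h.mul continuous_const).continuousOn,
    (h.mul (continuous_const.mul (hN.pow _))).continuousOn,
    (h.mul (continuous_const.mul (hN.pow _))).continuousOn, (h.mul continuous_const).continuousOn,
    (h.mul continuous_const).continuousOn⟩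

theorem coTg_ct {N : VV n → ℝ} (he : Continuous et) (hN : Continuous N) (h0 : ∀ z, 0 < N z) :
    (coTg p₁ p₂ C N et).Ct univ := by
  have h := he.pow 2
  have hs : Continuous fun z => √(N z) := hN.sqrt
  exact ⟨(h.mul (continuous_const.div hs fun z => (Real.sqrt_pos.2 (h0 z)).ne')).continuousOn,
    (h.mul (continuous_const.mul hs)).continuousOn,
    (h.mul (continuous_const.mul hs)).continuousOn, continuous_const.continuousOn,
    (h.mul (continuous_const.mul ((hN.pow _).mul hs))).continuousOn,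
    (h.mul (continuous_const.mul ((hN.pow _).mul hs))).continuousOn,
    continuous_const.continuousOn, continuous_const.continuousOn⟩

/-! ## One package -/

/-- The transfer with the constant `C`. -/
def TPert (n : ℕ) (B C : ℝ) : Prop :=
  ∀ (d : TD n) (S ε κ' ζ₁ ζ₂ w₁ w₂ ζ₁' ζ₂' w₁' w₂' : ℝ), d.Ok B S ε → 0 ≤ S → 0 < ε →
      C * ε ≤ 1 / 2 → 0 ≤ κ' → 0 ≤ ζ₁ → 0 ≤ ζ₂ → 0 ≤ w₁ → 0 ≤ w₂ → 0 ≤ ζ₁' → 0 ≤ ζ₂' →
      0 ≤ w₁' → 0 ≤ w₂' →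
      Zone (fx n) (fy n) d.U (fun _ => 1) (fun _ => 0) (fun _ => 0) d.W₀ d.χ₀
        (Kc d.χ₀ 1 ζ₁ ζ₂ w₁ w₂) (Kc d.ψ κ' ζ₁' ζ₂' w₁' w₂') →
      Zone (sx d.s₁) (sy d.s₂) d.U (fun _ => 1) d.v₁ d.v₂ d.W d.χ
        (Kc d.χ 1 (ζ₁ / 2) (ζ₂ / 2) (w₁ / 2) (w₂ / 2))
        (Kc d.et (2 * κ' + C * ε * Kt n S κ' ζ₁ ζ₂ w₁ w₂ ζ₁' ζ₂' * 2)
          (2 * ζ₁' + C * ε * Kt n S κ' ζ₁ ζ₂ w₁ w₂ ζ₁' ζ₂' * 2)
          (2 * ζ₂' + C * ε * Kt n S κ' ζ₁ ζ₂ w₁ w₂ ζ₁' ζ₂' * 2)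
          (w₁' + C * ε * Kt n S κ' ζ₁ ζ₂ w₁ w₂ ζ₁' ζ₂' * 2)
          (w₂' + C * ε * Kt n S κ' ζ₁ ζ₂ w₁ w₂ ζ₁' ζ₂' * 2))

/-- The constant of the transfer. -/
def CpF (n : ℕ) (B : ℝ) : ℝ := (tube_pert n (max 1 B) (le_max_left _ _)).choose

theorem CpF_spec (n : ℕ) {B : ℝ} (hB : 1 ≤ B) : 1 ≤ CpF n B ∧ TPert n B (CpF n B) := by
  have h := (tube_pert n (max 1 B) (le_max_left _ _)).choose_spec
  have e : max 1 B = B := max_eq_right hB
  refine ⟨h.1, ?_⟩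
  have h2 : TPert n (max 1 B) (CpF n B) := h.2
  rwa [e] at h2

/-- **The zone inequality of one tube, for one package.** -/
theorem zone_gen {Cb C' Cp δ : ℝ} (hn : 1 ≤ n) (hCp : 1 ≤ Cp) (HP : TPert n Cb Cp) (hc : 0 ≤ c)
    (hC : 0 ≤ C) (hp₁ : p₁ ≤ 2) (hp₂ : p₂ ≤ 2)
    (H : W1H q d T χ Cb C' δ (eN n Cp C' c C q)) (hR : H222.TR n (rU q) q) (hν : q.ν₁ < q.nm)
    (hw : Wn q d m₁ m₂) (he : EtOk q d T et)
    (z₁ : FZW q d T (b1 q) m₁ p₁ p₂ c C) (z₂ : FZW q d T (b2 q) m₂ p₁ p₂ c C) :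
    Zone (sx d.s₁) (sy d.s₂) univ (fun _ => 1) (fun _ => 0) (fun _ => 0) (d.W q) χ
      ((MTg p₁ p₂ (cZ c q) (Na d)).sm fun z => χ z ^ 2) (coTg p₁ p₂ (CZ C q) (Na d) et) := by
  have := H644.Ch.haar_VV (n := n)
  have hq := H.gt
  have hok := H.ok
  have hb := bq_pos hq.gc.rad
  have hc0 := hq.c0
  have eN0 : 0 < eN n Cp C' c C q := eN_pos hCp
  have k := w1_ok H eN0.le hw
  -- window 1
  set E₁ := Real.exp m₁ with hE₁
  set E₂ := Real.exp m₂ with hE₂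
  have E₁1 : 1 ≤ E₁ := Real.one_le_exp hw.m0
  have hm2 : 0 ≤ m₂ := by
    have h1 := hw.b0
    have h2 := hw.a1
    have h3 := (b2_le hq.wc.ν₁ hν)
    have h4 := hw.m0
    linarith [h3.1.trans h3.2]
  have E₂1 : 1 ≤ E₂ := Real.one_le_exp hm2
  have E₁M : E₁ ≤ EM q := Real.exp_le_exp.2 (hw.mM.trans (le_abs_self _))
  obtain ⟨n1, n2, n3⟩ := K_num (n := n) (q := q) (C' := C') hCp E₁1 E₁M hc hC hp₁ hp₂
  set K := Cp * eN n Cp C' c C q * Kt n (1 + (n + 4 * n ^ 2) * C' ^ 2) (C / √E₁) (c * E₁)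
    (c * E₁) (c * E₁ ^ (p₁ + 1)) (c * E₁ ^ (p₂ + 1)) (C * √E₁) (C * √E₁) * 2 with hK
  have Z1 := HP (td1 q d T χ m₁) (1 + (n + 4 * n ^ 2) * C' ^ 2) (eN n Cp C' c C q) (C / √E₁)
    (c * E₁) (c * E₁) (c * E₁ ^ (p₁ + 1)) (c * E₁ ^ (p₂ + 1)) (C * √E₁) (C * √E₁)
    (C * (E₁ ^ p₁ * √E₁)) (C * (E₁ ^ p₂ * √E₁)) k (by positivity) eN0 n1 (by positivity)
    (by positivity) (by positivity) (by positivity) (by positivity) (by positivity)
    (by positivity) (by positivity) (by positivity) z₁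
  rw [← hK] at Z1
  -- window 2
  have s0 : ContDiff ℝ ∞ (c0f q (b2 q) d.l m₂ T) :=
    chf_sm (F1_sm q) F2_sm (F3_sm _) hok.l_sm H.tu.Ts
  have s1 : ContDiff ℝ ∞ (ps q (b2 q) 1 d.l m₂ T) :=
    chf_sm (P1_sm q 1) (P2_sm 1) (P3_sm _ 1) hok.l_sm H.tu.Ts
  have s2 : ContDiff ℝ ∞ (ps q (b1 q) 2 d.l m₁ T) :=
    chf_sm (P1_sm q 2) (P2_sm 2) (P3_sm _ 2) hok.l_sm H.tu.Ts
  have hp := p12 hq.gc.rad
  have hpb := p2b hq.gc.rad
  have hlc : Continuous d.l := hok.l_sm.continuous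
  have hTc : Continuous T := H.tu.Ts.continuous
  have vv : ∀ {U : Set (VV n)}, ContDiffOn ℝ ∞ (fun _ : VV n => (0 : ℝ)) U := contDiffOn_const
  have Z2 := zone_eq (s₁ := d.s₁) (s₂ := d.s₂) isOpen_univ vv vv k.W k.W₀ (fun z _ => by
    by_cases hz : z ∈ Rk q (b2 q) 2 d.l m₂ T
    · exact Or.inl (eq_w2 hn hq hR hok hw hz)
    · right
      have a0 : c0f q (b2 q) d.l m₂ T z = 0 := by
        by_contra h
        exact hz (Rk_mono hb (by norm_num) (c0f_ts hc0 hb hp hpb hlc hTc (subset_tsupport _ h)))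
      have a1 : ps q (b2 q) 1 d.l m₂ T z = 0 := by
        by_contra h
        exact hz (Rk_mono hb (by norm_num) (ps_supp hc0 hb h))
      refine ⟨a0, ?_, ?_⟩ <;> simp [Kc, a0, a1]) z₂
  rw [← wχ_w2 hn hq hR hok H.tu hw] at Z2
  -- the sum
  have ok := ok_sx isOpen_univ isOpen_univ (fun z (_ : z ∈ (univ : Set (VV n))) => mem_univ z.1)
    k.h₁.sm k.y₁
  have ot := ok_sy isOpen_univ isOpen_univ (fun z (_ : z ∈ (univ : Set (VV n))) => mem_univ z.2)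
    k.h₂.sm k.y₂
  have c1 : Continuous (wχ d χ (b1 q) m₁) :=
    (H.tu.χs.mul ((F3_sm _).comp (H.lit.u0.sub contDiff_const))).continuous
  have c2 : ContDiff ℝ ∞ (wχ d χ (b2 q) m₂) :=
    H.tu.χs.mul ((F3_sm _).comp (H.lit.u0.sub contDiff_const))
  have Ks : ∀ {g : VV n → ℝ} {κ ζ₁ ζ₂ w₁ w₂ : ℝ}, Continuous g → (Kc g κ ζ₁ ζ₂ w₁ w₂).Ct univ :=
    fun hg => Kc_ct hg.continuousOn _ _ _ _ _
  have Z := zone_add ok ot vv vv k.W k.χ c2.contDiffOn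
    (fun z _ => wχ_sum hq hok H.tu hw z) (Ks c1) (Ks c2.continuous) (Ks s2.continuous)
    (Ks s1.continuous) Z1 Z2
  -- the letters
  have hN : Continuous (Na d) := hok.Φ's.continuous.comp H.lit.u0.continuous
  have hN0 : ∀ z, 0 < Na d z := fun z => hok.N_pos hq.gc.M1 _
  have hX := XT_ge q
  have hY := YT_ge q
  refine zone_mono ok ot vv vv k.W (ct_add (Ks c1) (Ks c2.continuous))
    (ct_add (Ks s2.continuous) (Ks s1.continuous)) (MTg_ct H.tu.χs.continuous hN)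
    (coTg_ct he.ct hN hN0) (fun z _ => ?_) (fun z _ => ?_) Z
  · have hs := wχ_sum hq hok H.tu hw z
    have w1 : wχ d χ (b1 q) m₁ z ≠ 0 → PtW q d m₁ z := fun h => by
      obtain ⟨a1, a2⟩ := wχ_u h
      exact ptw hq.wc.ν₁ hν hq.gc.M1 hok le_rfl a1 a2 (ratio1 hq hok hw a1 a2 hν)
    have w2 : wχ d χ (b2 q) m₂ z ≠ 0 → PtW q d m₂ z := fun h => by
      obtain ⟨a1, a2⟩ := wχ_u h
      exact ptw hq.wc.ν₁ hν hq.gc.M1 hok (b2_le hq.wc.ν₁ hν).2 a1 a2 (ratio2 hq hok hw a1 a2 hν)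
    have b1' : ∀ {p : ℕ}, p ≤ 2 → PtW q d m₁ z →
        cZ c q * Na d z ^ (p + 1) ≤ c * E₁ ^ (p + 1) / 2 ∧ cZ c q * Na d z ≤ c * E₁ / 2 :=
      fun hp h => (let_num (K := 0) hp h.N1 (by positivity) hX hY h.EN h.NE hc hC le_rfl
        (by positivity)).1
    have b2' : ∀ {p : ℕ}, p ≤ 2 → PtW q d m₂ z →
        cZ c q * Na d z ^ (p + 1) ≤ c * E₂ ^ (p + 1) / 2 ∧ cZ c q * Na d z ≤ c * E₂ / 2 :=
      fun hp h => (let_num (K := 0) hp h.N1 (by positivity) hX hY h.EN h.NE hc hC le_rfl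
        (by positivity)).1
    have h0 : ∀ k, 0 ≤ c * E₂ ^ k := fun k => by positivity
    have h1 : 0 ≤ c * E₂ := by positivity
    have mar : ∀ {Nk A B : ℝ}, (PtW q d m₁ z → Nk ≤ A) → (PtW q d m₂ z → Nk ≤ B) →
        χ z ^ 2 * Nk ≤ wχ d χ (b1 q) m₁ z ^ 2 * A + wχ d χ (b2 q) m₂ z ^ 2 * B := by
      intro Nk A B hA hB
      rw [hs, add_mul]
      refine add_le_add ?_ ?_
      · by_cases h : wχ d χ (b1 q) m₁ z = 0
        · rw [h]; simp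
        · exact mul_le_mul_of_nonneg_left (hA (w1 h)) (sq_nonneg _)
      · by_cases h : wχ d χ (b2 q) m₂ z = 0
        · rw [h]; simp
        · exact mul_le_mul_of_nonneg_left (hB (w2 h)) (sq_nonneg _)
    refine ⟨?_, ?_, ?_, ?_, ?_, ?_, ?_, ?_⟩
    all_goals simp only [Kc, MTg, Q8.sm, Q8.add_def, Pi.add_apply, Pi.mul_apply]
    · exact mar (fun _ => le_rfl) fun _ => le_rfl
    · exact mar (fun h => (b1' (p := 0) (by norm_num) h).2) fun h =>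
        (b2' (p := 0) (by norm_num) h).2.trans (half_le_self h1)
    · exact mar (fun h => (b1' (p := 0) (by norm_num) h).2) fun h =>
        (b2' (p := 0) (by norm_num) h).2.trans (half_le_self h1)
    · simp
    · exact mar (fun h => (b1' hp₁ h).1) fun h => (b2' hp₁ h).1.trans (half_le_self (h0 _))
    · exact mar (fun h => (b1' hp₂ h).1) fun h => (b2' hp₂ h).1.trans (half_le_self (h0 _))
    · simp
    · simp
  · -- the costs
    have hCZ : 0 ≤ CZ C q := by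
      unfold CZ
      positivity
    have hNz := hN0 z
    have sNz : 0 < √(Na d z) := Real.sqrt_pos.2 hNz
    have w1 : ps q (b1 q) 2 d.l m₁ T z ≠ 0 → PtW q d m₁ z ∧ et z = 1 ∧
        ps q (b2 q) 1 d.l m₂ T z = 0 := fun h => by
      have hz := ps_supp hc0 hb h
      have hP := ptw1 hq hok hw hν le_rfl hz
      have a1 := hw.a1
      have a2 := hw.b0
      have a3 := hw.b1
      have a4 := (b2_le hq.wc.ν₁ hν).1
      have a5 := (b2_le hq.wc.ν₁ hν).2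
      have a6 := hw.m0
      refine ⟨hP, et_one he hb le_rfl hz hP (by linarith), ?_⟩
      by_contra h'
      obtain ⟨u1, u2⟩ := rk_u le_rfl hz
      obtain ⟨u3, u4⟩ := rk_u (by norm_num) (ps_supp hc0 hb h')
      linarith
    have w2 : ps q (b2 q) 1 d.l m₂ T z ≠ 0 → PtW q d m₂ z ∧ et z = 1 := fun h => by
      have hz := ps_supp hc0 hb h
      have hP := ptw2 hq hok hw hν (by norm_num) hz
      have a3 := hw.b1
      exact ⟨hP, et_one he hb (by norm_num) hz hP (by linarith)⟩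
    have m1 : ps q (b1 q) 2 d.l m₁ T z ^ 2 ≤ 1 := pow_le_one₀ ps_mem.1 ps_mem.2
    have m2' : ps q (b2 q) 1 d.l m₂ T z ^ 2 ≤ 1 := pow_le_one₀ ps_mem.1 ps_mem.2
    have cos : ∀ {A B D : ℝ}, 0 ≤ D → (PtW q d m₁ z → A ≤ D) → (PtW q d m₂ z → B ≤ D) →
        ps q (b1 q) 2 d.l m₁ T z ^ 2 * A + ps q (b2 q) 1 d.l m₂ T z ^ 2 * B ≤ et z ^ 2 * D :=
      fun hD hA hB => cos_pt hD m1 m2' (fun h => ⟨hA (w1 h).1, (w1 h).2⟩)
        fun h => ⟨hB (w2 h).1, (w2 h).2⟩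
    have L1 : ∀ {p : ℕ}, p ≤ 2 → PtW q d m₁ z → _ := fun {p} hp h =>
      (let_num (p := p) (c := c) (C := C) (K := K) hp h.N1 (by positivity) hX hY h.EN h.NE hc hC
        n2 (n3 _ h.N1 h.NE)).2
    have L2 : ∀ {p : ℕ}, p ≤ 2 → PtW q d m₂ z → _ := fun {p} hp h =>
      (let_num (p := p) (c := c) (C := C) (K := 0) hp h.N1 (by positivity) hX hY h.EN h.NE hc hC
        le_rfl (by positivity)).2
    have q1 : 0 ≤ C / √E₂ := by positivity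
    have q2 : 0 ≤ C * √E₂ := by positivity
    refine ⟨?_, ?_, ?_, ?_, ?_, ?_, ?_, ?_⟩
    all_goals simp only [Kc, coTg, Q8.add_def, Pi.add_apply]
    · refine cos (by positivity) (fun h => (L1 hp₁ h).1) fun h => ?_
      have := (L2 hp₁ h).1
      show C / √E₂ ≤ (2 * C * (YT q + XT q ^ 3) + 1) / √(Na d z)
      linarith
    · refine cos (by positivity) (fun h => (L1 hp₁ h).2.1) fun h => ?_
      have := (L2 hp₁ h).2.1
      show C * √E₂ ≤ (2 * C * (YT q + XT q ^ 3) + 1) * √(Na d z)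
      linarith
    · refine cos (by positivity) (fun h => (L1 hp₁ h).2.1) fun h => ?_
      have := (L2 hp₁ h).2.1
      show C * √E₂ ≤ (2 * C * (YT q + XT q ^ 3) + 1) * √(Na d z)
      linarith
    · simp
    · refine cos (by positivity) (fun h => (L1 hp₁ h).2.2) fun h => ?_
      have := (L2 hp₁ h).2.2
      show C * (E₂ ^ p₁ * √E₂) ≤ (2 * C * (YT q + XT q ^ 3) + 1) * (Na d z ^ p₁ * √(Na d z))
      linarith
    · refine cos (by positivity) (fun h => (L1 hp₂ h).2.2) fun h => ?_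
      have := (L2 hp₂ h).2.2
      show C * (E₂ ^ p₂ * √E₂) ≤ (2 * C * (YT q + XT q ^ 3) + 1) * (Na d z ^ p₂ * √(Na d z))
      linarith
    · simp
    · simp

/-! ## The zone theorems -/

theorem MTg_12 (c : ℝ) (N : VV n → ℝ) : MTg 1 2 c N = H509.PT.MT1 c N := rfl

theorem MTg_21 (c : ℝ) (N : VV n → ℝ) : MTg 2 1 c N = H509.PT.MT2 c N := rfl

theorem coTg_12 (C : ℝ) (N et : VV n → ℝ) : coTg 1 2 C N et = H509.PT.coT1 C N et := by
  unfold coTg H509.PT.coT1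
  simp only [pow_one, mul_assoc]

theorem coTg_21 (C : ℝ) (N et : VV n → ℝ) : coTg 2 1 C N et = H509.PT.coT2 C N et := by
  unfold coTg H509.PT.coT2
  simp only [pow_one, mul_assoc]

theorem CT_nn (n : ℕ) (q : Cst) : 0 ≤ H820.Fl.CT n q := by
  unfold H820.Fl.CT H820.Fl.C0
  split_ifs with h
  · exact h.choose_spec.1
  · exact le_rfl

/-- The constant of the margins of the tubes. -/
def cTz (n : ℕ) (q : Cst) : ℝ := cZ (H820.Fl.cT n q) q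

/-- The constant of the costs of the tubes. -/
def CTz (n : ℕ) (q : Cst) : ℝ := CZ (H820.Fl.CT n q) q

theorem cTz_pos (n : ℕ) (q : Cst) : 0 < cTz n q := by
  have h1 : 0 < H820.Fl.cT n q := (H820.Fl.x3_pos (n := n) q.b_rT).2.2
  have h2 := YT_ge q
  unfold cTz cZ
  positivity

theorem CTz_pos (n : ℕ) (q : Cst) : 0 < CTz n q := by
  have h1 := CT_nn n q
  have h2 := YT_ge q
  have h3 := XT_ge q
  unfold CTz CZ
  positivity

theorem cTz_rT (n : ℕ) : NB_rT (cTz n) := fun _ => rfl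

theorem CTz_ηc (n : ℕ) : NB_ηc (CTz n) := fun _ => rfl

theorem CTz_c' (n : ℕ) : NB_c' (CTz n) := fun _ => rfl

/-- **The zone inequalities of the tubes.** -/
theorem zone_T (hn : 3 ≤ n) : EvC fun q => ∀ d : Pk n, PkOk q d →
    Zone (sx d.s₁) (sy d.s₂) univ (fun _ => 1) (fun _ => 0) (fun _ => 0) (d.W q) (d.ch q .T1)
      ((H509.PT.MT1 (cTz n q) (Na d)).sm fun z => d.ch q .T1 z ^ 2)
      (H509.PT.coT1 (CTz n q) (Na d) (etx q d)) ∧
    Zone (sx d.s₁) (sy d.s₂) univ (fun _ => 1) (fun _ => 0) (fun _ => 0) (d.W q) (d.ch q .T2)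
      ((H509.PT.MT2 (cTz n q) (Na d)).sm fun z => d.ch q .T2 z ^ 2)
      (H509.PT.coT2 (CTz n q) (Na d) (ety q d)) := by
  have hn1 : 1 ≤ n := by omega
  obtain ⟨Cb, C', nb, nC, hCb, hC', E⟩ := ev_w1 hn1
  have ne : NB_ε fun q => eN n (CpF n (Cb q)) (C' q) (H820.Fl.cT n q) (H820.Fl.CT n q) q :=
    fun q => by
      show eN n (CpF n (Cb q.b_ε)) (C' q.b_ε) (H820.Fl.cT n q) (H820.Fl.CT n q) q = _
      rw [nb q, nC q]
  have E1 := E _ ne fun q => eN_pos (CpF_spec n (hCb q)).1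
  refine ((E1.and (H222.ev_TR (n := n) rU_nb)).and ((evWC.and (H820.Fl.evFC n)).and
    (evWn n))).mono ?_
  rintro q ⟨⟨H, hR⟩, ⟨wc, fc⟩, W⟩ d hd
  obtain ⟨H1, H2⟩ := H d hd
  obtain ⟨m₁, m₂, hw⟩ := W d hd
  obtain ⟨c0, C0, f1, f2⟩ := H820.Fl.flt hn fc hd hw
  have hν : q.ν₁ < q.nm := by linarith [wc.ν4, wc.νp]
  have hq := H1.gt
  have hb := bq_pos hq.gc.rad
  have hnm := hq.wc.nm
  obtain ⟨hCp, HP⟩ := CpF_spec n (hCb q)
  obtain ⟨e1, e2⟩ := et_ct H1.lit hd.Φ's.continuous hq.gc.rad hd hq.gc.M1 hq.gc.rT0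
  constructor
  · have := zone_gen (p₁ := 1) (p₂ := 2) hn1 hCp HP c0.le C0 (by norm_num) (by norm_num) H1 hR hν
      hw ⟨e1, fun z h1 h2 h3 h4 h5 h6 => etx_one hq.c0 hb hq.wc.ν₁ hnm h1 h2 h3 h4 h5 h6⟩
      (fzw_x hq.c0 hb hd.l_sm H1.tu.Ts f1) (fzw_x hq.c0 hb hd.l_sm H1.tu.Ts f2)
    rwa [MTg_12, coTg_12] at this
  · have := zone_gen (p₁ := 2) (p₂ := 1) hn1 hCp HP c0.le C0 (by norm_num) (by norm_num) H2 hR hν
      hw ⟨e2, fun z h1 h2 h3 h4 h5 h6 => ety_one hq.c0 hb hq.wc.ν₁ hnm h1 h2 h3 h4 h5 h6⟩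
      (fzw_y hq.c0 hb hd.l_sm H2.tu.Ts f1) (fzw_y hq.c0 hb hd.l_sm H2.tu.Ts f2)
    rwa [MTg_21, coTg_21] at this

/-- **The zone theorem of `T1`.** -/
theorem zoneT1 (hn : 3 ≤ n) : ZoneThm n (fun q d => d.ch q .T1)
    (fun q d => (H509.PT.MT1 (cTz n q) (Na d)).sm fun z => d.ch q .T1 z ^ 2)
    (fun q d => H509.PT.coT1 (CTz n q) (Na d) (etx q d)) :=
  (zone_T hn).mono fun _ hq d hd => (hq d hd).1

/-- **The zone theorem of `T2`.** -/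
theorem zoneT2 (hn : 3 ≤ n) : ZoneThm n (fun q d => d.ch q .T2)
    (fun q d => (H509.PT.MT2 (cTz n q) (Na d)).sm fun z => d.ch q .T2 z ^ 2)
    (fun q d => H509.PT.coT2 (CTz n q) (Na d) (ety q d)) :=
  (zone_T hn).mono fun _ hq d hd => (hq d hd).2

end Vale.Agent.P088.R2.H354.T
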