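import Vale.Agent.P088.R2.H354.T.W2

/-!
# P088, stage 3, zone T: numbers

The slope `N = Φ'(u)` in a window against `E = e^m`: `E ≤ X N`, `N ≤ Y E`; the letters.
-/

open Set Filter
open scoped ContDiff Topology Matrix

noncomputable section

namespace Vale.Agent.P088.R2.H354.T

open Vale.Agent.P088.LR Vale.Agent.P088.HY
open Vale.Agent.P088.R2.H31.EP
open Vale.Agent.P088.R2.H509.TG
open Vale.Agent.P088.R2.H354.E
open Vale.Agent.P088.R2.H551.E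

variable {n : ℕ} {q : Cst} {d : Pk n} {z : VV n} {T χ : VV n → ℝ} {m₁ m₂ : ℝ}

/-- The ratios. -/
def XT (q : Cst) : ℝ := 1 + 2 / |q.ν₁|
def YT (q : Cst) : ℝ := 1 + 2 * (|q.nm| * Real.exp (b1 q))

theorem XT_ge (q : Cst) : 1 ≤ XT q := by
  unfold XT
  have : 0 ≤ 2 / |q.ν₁| := by positivity
  linarith

theorem YT_ge (q : Cst) : 1 ≤ YT q := by
  unfold YT
  have : 0 ≤ 2 * (|q.nm| * Real.exp (b1 q)) := by positivity
  linarith

/-- The slope against `e^m`. -/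
theorem NE_of {ν nm u m β β' N : ℝ} (hν : 0 < ν) (hn : 0 < nm) (h1 : m - 1 / 4 ≤ u)
    (h2 : u ≤ m + β + 1 / 4) (hβ : β ≤ β') (lo : 3 / 4 * ν * Real.exp u ≤ N)
    (hi : N ≤ 3 / 2 * nm * Real.exp u) :
    Real.exp m ≤ (1 + 2 / |ν|) * N ∧ N ≤ (1 + 2 * (|nm| * Real.exp β')) * Real.exp m := by
  have e4 : Real.exp (1 / 4) ≤ 4 / 3 := by
    have h1 : Real.exp (1 / 4) ≤ 1 / (1 - 1 / 4) := Real.exp_bound_div_one_sub_of_interval'
      (by norm_num) (by norm_num) |>.le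
    linarith
  have hm := Real.exp_pos m
  have hu := Real.exp_pos u
  have hN : 0 < N := lt_of_lt_of_le (by positivity) lo
  rw [abs_of_pos hν, abs_of_pos hn]
  constructor
  · have k1 : Real.exp m ≤ 4 / 3 * Real.exp u := by
      have : Real.exp m ≤ Real.exp (1 / 4) * Real.exp u := by
        rw [← Real.exp_add]
        exact Real.exp_le_exp.2 (by linarith)
      nlinarith
    have k2 : Real.exp m ≤ 2 / ν * N := by
      rw [div_mul_eq_mul_div, le_div_iff₀ hν]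
      nlinarith
    nlinarith
  · have k1 : Real.exp u ≤ 4 / 3 * (Real.exp β' * Real.exp m) := by
      have : Real.exp u ≤ Real.exp (1 / 4) * (Real.exp β' * Real.exp m) := by
        rw [← Real.exp_add, ← Real.exp_add]
        exact Real.exp_le_exp.2 (by linarith)
      have h0 : 0 < Real.exp β' * Real.exp m := by positivity
      nlinarith
    have k2 : N ≤ 2 * (nm * Real.exp β') * Real.exp m := by
      have := mul_le_mul_of_nonneg_left k1 (by positivity : 0 ≤ 3 / 2 * nm)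
      nlinarith
    nlinarith

/-- Generic letters. -/
def MTg (p₁ p₂ : ℕ) (c : ℝ) (N : VV n → ℝ) : Q8 (VV n) where
  κ _ := 1
  ζ₁ z := c * N z
  ζ₂ z := c * N z
  ζy _ := 0
  w₁ z := c * N z ^ (p₁ + 1)
  w₂ z := c * N z ^ (p₂ + 1)
  wb _ := 0
  wc _ := 0

def coTg (p₁ p₂ : ℕ) (C : ℝ) (N et : VV n → ℝ) : Q8 (VV n) where
  κ z := et z ^ 2 * (C / √(N z))
  ζ₁ z := et z ^ 2 * (C * √(N z))
  ζ₂ z := et z ^ 2 * (C * √(N z))
  ζy _ := 0
  w₁ z := et z ^ 2 * (C * (N z ^ p₁ * √(N z)))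
  w₂ z := et z ^ 2 * (C * (N z ^ p₂ * √(N z)))
  wb _ := 0
  wc _ := 0

/-- The numbers of the letters. -/
theorem let_num {N E X Y c C K : ℝ} {p : ℕ} (hp : p ≤ 2) (hN : 1 ≤ N) (hE : 0 < E) (hX : 1 ≤ X)
    (hY : 1 ≤ Y) (h1 : E ≤ X * N) (h2 : N ≤ Y * E) (hc : 0 ≤ c) (hC : 0 ≤ C) (hK0 : 0 ≤ K)
    (hK : K ≤ 1 / √N) :
    (c / (2 * Y ^ 3) * N ^ (p + 1) ≤ c * E ^ (p + 1) / 2 ∧ c / (2 * Y ^ 3) * N ≤ c * E / 2) ∧
    2 * (C / √E) + K ≤ (2 * C * (Y + X ^ 3) + 1) / √N ∧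
    2 * (C * √E) + K ≤ (2 * C * (Y + X ^ 3) + 1) * √N ∧
    C * (E ^ p * √E) + K ≤ (2 * C * (Y + X ^ 3) + 1) * (N ^ p * √N) := by
  have hN0 : 0 < N := by linarith
  have sN : 1 ≤ √N := by rw [← Real.sqrt_one]; exact Real.sqrt_le_sqrt hN
  have sN0 : 0 < √N := by linarith
  have sE : 0 < √E := Real.sqrt_pos.2 hE
  have hY0 : 0 < Y := by linarith
  have hX0 : 0 < X := by linarith
  have Y3 : Y ^ (p + 1) ≤ Y ^ 3 := pow_le_pow_right₀ hY (by omega)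
  have Y1 : Y ≤ Y ^ 3 := by
    calc Y = Y ^ 1 := (pow_one Y).symm
      _ ≤ Y ^ 3 := pow_le_pow_right₀ hY (by norm_num)
  have Y30 : 0 < Y ^ 3 := by positivity
  have key : ∀ k : ℕ, Y ^ k ≤ Y ^ 3 → c / (2 * Y ^ 3) * N ^ k ≤ c * E ^ k / 2 := fun k hk => by
    have a1 : N ^ k ≤ Y ^ 3 * E ^ k := by
      calc N ^ k ≤ (Y * E) ^ k := pow_le_pow_left₀ hN0.le h2 k
        _ = Y ^ k * E ^ k := mul_pow _ _ _
        _ ≤ Y ^ 3 * E ^ k := mul_le_mul_of_nonneg_right hk (by positivity)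
    have a2 : c / (2 * Y ^ 3) * N ^ k ≤ c / (2 * Y ^ 3) * (Y ^ 3 * E ^ k) :=
      mul_le_mul_of_nonneg_left a1 (by positivity)
    refine a2.trans (le_of_eq ?_)
    field_simp
  have k2 : c / (2 * Y ^ 3) * N ≤ c * E / 2 := by
    have := key 1 (by rw [pow_one]; exact Y1)
    rwa [pow_one, pow_one] at this
  have KN : K ≤ 1 := hK.trans (by rw [div_le_one sN0]; exact sN)
  -- square roots
  have r1 : √N ≤ Y * √E := by
    calc √N ≤ √(Y * E) := Real.sqrt_le_sqrt h2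
      _ = √Y * √E := Real.sqrt_mul hY0.le E
      _ ≤ Y * √E := by
        refine mul_le_mul_of_nonneg_right ?_ sE.le
        rw [Real.sqrt_le_left hY0.le]
        nlinarith
  have r2 : √E ≤ X * √N := by
    calc √E ≤ √(X * N) := Real.sqrt_le_sqrt h1
      _ = √X * √N := Real.sqrt_mul hX0.le N
      _ ≤ X * √N := by
        refine mul_le_mul_of_nonneg_right ?_ sN0.le
        rw [Real.sqrt_le_left hX0.le]
        nlinarith
  have X3 : X ≤ X ^ 3 := by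
    calc X = X ^ 1 := (pow_one X).symm
      _ ≤ X ^ 3 := pow_le_pow_right₀ hX (by norm_num)
  refine ⟨⟨key (p + 1) Y3, k2⟩, ?_, ?_, ?_⟩
  · have a1 : C / √E ≤ C * Y / √N := by
      rw [div_le_div_iff₀ sE sN0]
      nlinarith
    have a2 : C * Y / √N ≤ C * (Y + X ^ 3) / √N := by
      refine div_le_div_of_nonneg_right ?_ sN0.le
      have : 0 ≤ C * X ^ 3 := by positivity
      linarith
    have a3 : (2 * C * (Y + X ^ 3) + 1) / √N = 2 * (C * (Y + X ^ 3) / √N) + 1 / √N := by ring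
    rw [a3]
    linarith
  · have a1 : C * √E ≤ C * (Y + X ^ 3) * √N := by
      have b1 := mul_le_mul_of_nonneg_left r2 hC
      have b2 : C * (X * √N) ≤ C * (X ^ 3 * √N) :=
        mul_le_mul_of_nonneg_left (mul_le_mul_of_nonneg_right X3 sN0.le) hC
      have b3 : 0 ≤ C * Y * √N := by positivity
      nlinarith
    nlinarith
  · have b1 : E ^ p * √E ≤ X ^ 3 * (N ^ p * √N) := by
      calc E ^ p * √E ≤ (X * N) ^ p * (X * √N) :=
            mul_le_mul (pow_le_pow_left₀ hE.le h1 p) r2 sE.le (by positivity)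
        _ = X ^ (p + 1) * (N ^ p * √N) := by rw [mul_pow]; ring
        _ ≤ X ^ 3 * (N ^ p * √N) := by
          refine mul_le_mul_of_nonneg_right (pow_le_pow_right₀ hX (by omega)) (by positivity)
    have b2 : 1 ≤ N ^ p * √N := by
      have := one_le_pow₀ (n := p) hN
      nlinarith
    have b3 := mul_le_mul_of_nonneg_left b1 hC
    have b4 : 0 ≤ C * Y * (N ^ p * √N) := by positivity
    have b5 : 0 ≤ C * X ^ 3 * (N ^ p * √N) := by positivity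
    nlinarith

/-- The bound of `Kt`. -/
theorem Kt_le {n : ℕ} {S κ' ζ₁ ζ₂ w₁ w₂ ζ₁' ζ₂' a b A : ℝ} (hS : 0 ≤ S) (h1 : 0 ≤ κ')
    (h2 : κ' ≤ a) (h3 : ζ₁ ≤ b) (h4 : ζ₂ ≤ b) (h5 : w₁ ≤ b) (h6 : w₂ ≤ b) (h7 : ζ₁' ≤ A)
    (h8 : ζ₂' ≤ A) :
    Kt n S κ' ζ₁ ζ₂ w₁ w₂ ζ₁' ζ₂' ≤ Kt n S a b b b b A A := by
  unfold Kt
  have hn : (0 : ℝ) ≤ n := Nat.cast_nonneg n
  have k1 : S * (1 + κ') ≤ S * (1 + a) := mul_le_mul_of_nonneg_left (by linarith) hS
  have k2 : (n : ℝ) * (ζ₁ + ζ₂ + 2 * (ζ₁' + ζ₂')) ≤ n * (b + b + 2 * (A + A)) :=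
    mul_le_mul_of_nonneg_left (by linarith) hn
  linarith

end Vale.Agent.P088.R2.H354.T
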