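import Vale.Agent.P088.R2.H354.T.Ch

/-!
# P088, stage 3, zone T: window 1, the data of the transfer

`w1_ok`: the true weight, tensors and cut-off are close to the flat ones: `TD.Ok (B q) (S q) (e q)`
for every `e : Cst → ℝ` of the constants before `ε`.
-/

open Set Filter
open scoped ContDiff Topology Matrix

noncomputable section

namespace Vale.Agent.P088.R2.H354.T

open Vale.Agent.P088.LR Vale.Agent.P088.HY
open Vale.Agent.P088.R2.H222 hiding qq qq_nonneg W0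
open Vale.Agent.P088.R2.H31.EP
open Vale.Agent.P088.R2.H464.Cu (rq mid)
open Vale.Agent.P088.R2.H509.TG
open Vale.Agent.P088.R2.H354.E Vale.Agent.P088.R2.H973.W
open Vale.Agent.P088.R2.H551.E

variable {n : ℕ} {q : Cst} {d : Pk n} {z : VV n} {T χ : VV n → ℝ} {m₁ m₂ : ℝ}

/-! ## The region of the close weights -/

/-- The radius. -/
def rU (q : Cst) : ℝ := |2 * p₃ q|

/-- The range of `e^u / M₀`. -/
def aU (q : Cst) : ℝ :=
  |q.nm| * Real.exp 1 + |q.ph.Cb / q.nm| * Real.exp (b1 q + 1) + 1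

theorem rU_nb : NB_Cs rU := fun _ => rfl

theorem aU_nb : NB_Cs aU := fun _ => rfl

theorem rU_nn (q : Cst) : 0 ≤ rU q := abs_nonneg _

theorem aU_pos (q : Cst) : 0 < aU q := by
  unfold aU
  positivity

/-- The region. -/
def UU (q : Cst) (d : Pk n) : Set (VV n) := UT d.l (rU q) (aT aU q) (bT aU q)

theorem Rk_UU (hq : GT n q) (hg : PhGood q.nm q.ν₁ q.aC q.ph) (hw : Wn q d m₁ m₂)
    (hz : z ∈ Rk q (b1 q) 2 d.l m₁ T) : z ∈ UU q d := by
  obtain ⟨⟨h1, h2⟩, h3, h4, h5⟩ := hz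
  have hp := p₃_ge hq.gc.rad
  have hnm := hq.wc.nm
  have hM : 0 < q.M₀ := by linarith [hq.gc.M1]
  have hCb := hg.Cb0
  have ha := aU_pos q
  have e1 : Real.exp 1 * q.nm < aU q := by
    unfold aU
    rw [abs_of_pos hnm]
    have : 0 ≤ |q.ph.Cb / q.nm| * Real.exp (b1 q + 1) := by positivity
    nlinarith
  have e2 : q.ph.Cb / q.nm * Real.exp (b1 q + 1) < aU q := by
    unfold aU
    have h0 : 0 < q.ph.Cb / q.nm := by positivity
    rw [abs_of_pos h0]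
    have : 0 ≤ |q.nm| * Real.exp 1 := by positivity
    linarith
  refine ⟨?_, ?_, ?_⟩
  · show qq z < rU q ^ 2
    unfold rU
    rw [sq_abs]
    rw [bq_p₃] at h2
    nlinarith
  · have k1 : aT aU q ≤ Real.log (q.M₀ / q.nm) - 1 := by
      unfold aT
      have k2 : Real.log (q.M₀ / aU q) ≤ Real.log (q.M₀ / q.nm / Real.exp 1) := by
        refine Real.log_le_log (by positivity) ?_
        rw [div_div, mul_comm q.nm]
        exact div_le_div_of_nonneg_left hM.le (by positivity) e1.le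
      rwa [Real.log_div (by positivity) (Real.exp_pos 1).ne', Real.log_exp] at k2
    have := hw.mL
    linarith
  · have k1 : mM q + b1 q + 1 ≤ bT aU q := by
      unfold bT
      have k2 : Real.log (q.ph.Cb * q.M₀ / q.nm * Real.exp (b1 q + 1)) ≤
          Real.log (aU q * q.M₀) := by
        refine Real.log_le_log (by positivity) ?_
        have : q.ph.Cb * q.M₀ / q.nm * Real.exp (b1 q + 1) =
            q.ph.Cb / q.nm * Real.exp (b1 q + 1) * q.M₀ := by ring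
        rw [this]
        exact mul_le_mul_of_nonneg_right e2.le hM.le
      rw [Real.log_mul (by positivity) (Real.exp_pos _).ne', Real.log_exp] at k2
      unfold mM
      linarith
    have := hw.mM
    linarith

/-! ## The tensors -/

theorem n3_of_ck {s : MF n} {ε e : ℝ} (h : Ck 3 univ ε s) (he : ε ≤ e) : N3 univ e e e e s := by
  have hs : ∀ i j, ContDiff ℝ ∞ fun x => s x i j := fun i j => contDiffOn_univ.1 (h.smooth i j)
  have b0 : ∀ i j, Bk 3 univ ε fun x => s x i j - dl i j := fun i j => h i j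
  have ek : ∀ i j (x : V n), (fun y => fderiv ℝ (fun x => s x i j - dl i j) y) x =
      fderiv ℝ (fun x => s x i j) x := fun i j x => by
    show fderiv ℝ (fun x => s x i j - dl i j) x = _
    rw [fderiv_sub_const]
  have b1 : ∀ k i j, Bk 2 univ ε (pd k fun y => s y i j) := fun k i j => by
    refine (Bk.ap (k := 2) (b0 i j) (nrm_s k)).congr fun x _ => ?_
    unfold pd
    rw [← ek i j x]
  have b2 : ∀ l k i j, Bk 1 univ ε (pd l (pd k fun y => s y i j)) := fun l k i j => by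
    refine (Bk.ap (k := 1) (b1 k i j) (nrm_s l)).congr fun x _ => ?_
    rfl
  have b3 : ∀ m l k i j, Bk 0 univ ε (pd m (pd l (pd k fun y => s y i j))) :=
    fun m l k i j => by
    refine (Bk.ap (k := 0) (b2 l k i j) (nrm_s m)).congr fun x _ => ?_
    rfl
  exact ⟨fun i j => (hs i j).contDiffOn,
    fun x _ i j => ((b0 i j).val (mem_univ x)).trans he,
    fun x _ k i j => ((b1 k i j).val (mem_univ x)).trans he,
    fun x _ l k i j => ((b2 l k i j).val (mem_univ x)).trans he,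
    fun x _ m l k i j => ((b3 m l k i j).val (mem_univ x)).trans he⟩

/-! ## The data -/

/-- The data of the transfer in window 1. -/
def td1 (q : Cst) (d : Pk n) (T χ : VV n → ℝ) (m : ℝ) : TD n where
  O₁ := univ
  O₂ := univ
  U := univ
  s₁ := d.s₁
  s₂ := d.s₂
  v₁ := fun _ => 0
  v₂ := fun _ => 0
  W := d.W q
  W₀ := d.W0 q
  χ := wχ d χ (b1 q) m
  χ₀ := c0f q (b1 q) d.l m T
  ψ := ps q (b1 q) 1 d.l m T
  et := ps q (b1 q) 2 d.l m T

/-- A Lipschitz constant of the radial factor. -/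
theorem F1_lip (q : Cst) : ∃ M : ℝ, 0 ≤ M ∧ ∀ x ∈ Icc 0 (2 * bq q), ∀ y ∈ Icc 0 (2 * bq q),
    |F1 q x - F1 q y| ≤ M * |x - y| := by
  obtain ⟨M, hM, hS⟩ := exists_Sk (F1_sm q) (isCompact_Icc (a := 0) (b := 2 * bq q)) 1
  refine ⟨M, hM, fun x hx y hy => ?_⟩
  have h := (convex_Icc 0 (2 * bq q)).norm_image_sub_le_of_norm_deriv_le (f := F1 q) (C := M)
    (fun x _ => (F1_sm q).differentiable (by simp) x) (fun x hx => by
      have := hS.b 1 le_rfl x hx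
      rwa [iteratedDeriv_one] at this) hy hx
  exact h

/-- The constant of `F1_lip`. -/
def LF (q : Cst) : ℝ := (F1_lip q.b_ε).choose

theorem LF_spec (q : Cst) : 0 ≤ LF q ∧ ∀ x ∈ Icc 0 (2 * bq q), ∀ y ∈ Icc 0 (2 * bq q),
    |F1 q x - F1 q y| ≤ LF q * |x - y| := (F1_lip q.b_ε).choose_spec

theorem LF_nb : NB_ε LF := fun _ => rfl

/-- **The comparison of the cut-offs.** -/
theorem cl_w1 (hq : GT n q) (h : PkOk q d) (ht : Tu q d T χ) {m β δ e : ℝ}
    (hu : ∀ u, m ≤ u → u ≤ m + β → u ≤ 2 * d.l₀ q + 23 / 5 * q.R)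
    (hi : ∀ u, m ≤ u → u ≤ m + β → deriv d.Φ u ≤ q.nm * Real.exp u)
    (hδ : ∀ z, |d.r2 z - qq z| ≤ δ * qq z) (hδ0 : 0 ≤ δ) (hd : 2 * (LF q * (δ * bq q)) ≤ e)
    (he : 0 ≤ e) (z : VV n) :
    |wχ d χ β m z ^ 2 - c0f q β d.l m T z ^ 2| ≤ e * ps q β 2 d.l m T z ^ 2 := by
  have hb := bq_pos hq.gc.rad
  rw [wχ_eq hq h ht hu hi]
  have e0 : c0f q β d.l m T z = F1 q (qq z) * (F2 (T z) * F3 β (d.u0 z - m)) := rfl
  rw [e0]
  set A := F1 q (d.r2 z) with hA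
  set B := F1 q (qq z) with hB
  set c := F2 (T z) * F3 β (d.u0 z - m) with hc
  have ec : (A * F2 (T z) * F3 β (d.u0 z - m)) ^ 2 - (B * c) ^ 2 =
      (A - B) * (A + B) * c ^ 2 := by rw [hc]; ring
  rw [ec]
  obtain ⟨A0, A1⟩ : 0 ≤ A ∧ A ≤ 1 := F1_mem
  obtain ⟨B0, B1⟩ : 0 ≤ B ∧ B ≤ 1 := F1_mem
  obtain ⟨c0, c1⟩ : 0 ≤ c ∧ c ≤ 1 := mul_mem F2_mem F3_mem
  have hp0 : 0 ≤ e * ps q β 2 d.l m T z ^ 2 := by positivity
  by_cases h1 : c = 0
  · rw [h1]
    simpa using hp0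
  by_cases h2 : A = 0 ∧ B = 0
  · rw [h2.1, h2.2]
    simpa using hp0
  -- the point is in the region
  have hc0 := hq.c0
  have hcc := sq_nonneg q.c₀
  have hq0 := qq_nonneg z
  have hp := p12 hq.gc.rad
  have hpb := p2b hq.gc.rad
  have hm := hq.met d h z
  have hdT : dT q ≤ 1 / 4 := min_le_left _ _
  have hm' : |d.r2 z - qq z| ≤ 1 / 4 * qq z := hm.trans (mul_le_mul_of_nonneg_right hdT hq0)
  obtain ⟨m1, m2⟩ := abs_le.1 hm'
  have reg : (4 / 5 * q.c₀ ^ 2 ≤ qq z ∧ qq z ≤ bq q) := by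
    by_cases hA' : A = 0
    · have hB' : B ≠ 0 := fun hB' => h2 ⟨hA', hB'⟩
      obtain ⟨a1, a2⟩ := F1_supp hc0 hp hB'
      exact ⟨by linarith, by linarith⟩
    · obtain ⟨a1, a2⟩ := F1_supp hc0 hp hA'
      obtain ⟨k1, k2, k3⟩ := qq_bd hq h a2 a1
      exact ⟨by linarith, k2⟩
  obtain ⟨r1, r2⟩ := reg
  obtain ⟨f2, f3⟩ := ne_zero_and_ne_zero_of_mul h1
  have g2 := F2_supp f2
  obtain ⟨g3, g4⟩ := F3_supp f3
  have hps : ps q β 2 d.l m T z = 1 := by
    refine ps_one hc0 hb ?_ ?_ ?_ ?_ ?_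
    · linarith
    · linarith
    · linarith
    · show 1 - 2 ≤ 8 * (d.u0 z - m)
      linarith
    · show 8 * (d.u0 z - m) ≤ 8 * β + 2 - 1
      linarith
  rw [hps, one_pow, mul_one]
  have hL := (LF_spec q).2 (d.r2 z) ⟨by linarith, by linarith⟩ (qq z) ⟨by linarith, by linarith⟩
  have hL0 := (LF_spec q).1
  have h5 : |A - B| ≤ LF q * (δ * bq q) := by
    refine hL.trans (mul_le_mul_of_nonneg_left ((hδ z).trans ?_) hL0)
    exact mul_le_mul_of_nonneg_left r2 hδ0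
  rw [abs_mul, abs_mul, abs_of_nonneg (by linarith : 0 ≤ A + B), abs_of_nonneg (sq_nonneg c)]
  have h6 : |A - B| * (A + B) ≤ LF q * (δ * bq q) * 2 :=
    mul_le_mul h5 (by linarith) (by linarith) (by positivity)
  have h7 : c ^ 2 ≤ 1 := by nlinarith
  calc |A - B| * (A + B) * c ^ 2 ≤ |A - B| * (A + B) * 1 :=
        mul_le_mul_of_nonneg_left h7 (mul_nonneg (abs_nonneg _) (by linarith))
    _ ≤ e := by linarith

/-! ## The hypotheses of the transfer -/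

/-- What is needed at one package. -/
structure W1H (q : Cst) (d : Pk n) (T χ : VV n → ℝ) (C C' δ e : ℝ) : Prop where
  gt : GT n q
  ph : PhGood q.nm q.ν₁ q.aC q.ph
  ok : PkOk q d
  lit : LitSm q d
  tu : Tu q d T χ
  ε : q.ε ≤ e
  ε12 : Ck 3 univ q.ε d.s₁ ∧ Ck 3 univ q.ε d.s₂
  cl : Bk 4 (UU q d) e (fun z => d.W q z - d.W0 q z)
  bW : Bk 4 (UU q d) C (d.W q)
  bW0 : Bk 4 (UU q d) C (d.W0 q)
  g0 : ∀ m, 0 ≤ m → m ≤ mM q → Bk 2 (UU q d) C' (c0f q (b1 q) d.l m T)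
  g1 : ∀ m, 0 ≤ m → m ≤ mM q → Bk 2 (UU q d) C' (ps q (b1 q) 1 d.l m T)
  C'0 : 0 ≤ C'
  dz : ∀ z, |d.r2 z - qq z| ≤ δ * qq z
  dz0 : 0 ≤ δ
  dz1 : 2 * (LF q * (δ * bq q)) ≤ e

/-- **The hypotheses of the transfer hold.** -/
theorem w1_ok {C C' δ e : ℝ} (H : W1H q d T χ C C' δ e) (he : 0 ≤ e) (hw : Wn q d m₁ m₂) :
    (td1 q d T χ m₁).Ok C (1 + (n + 4 * n ^ 2) * C' ^ 2) e := by
  have hq := H.gt
  have hok := H.ok
  have hb := bq_pos hq.gc.rad
  have hp := p12 hq.gc.rad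
  have hpb := p2b hq.gc.rad
  have hlc : Continuous d.l := hok.l_sm.continuous
  have hTc : Continuous T := H.tu.Ts.continuous
  have s0 : ContDiff ℝ ∞ (c0f q (b1 q) d.l m₁ T) :=
    chf_sm (F1_sm q) F2_sm (F3_sm _) hok.l_sm H.tu.Ts
  have s1 : ∀ k, ContDiff ℝ ∞ (ps q (b1 q) k d.l m₁ T) := fun k =>
    chf_sm (P1_sm q k) (P2_sm k) (P3_sm _ k) hok.l_sm H.tu.Ts
  have t0 : tsupport (c0f q (b1 q) d.l m₁ T) ⊆ Rk q (b1 q) 1 d.l m₁ T := fun z hz =>
    Rk_mono hb zero_le_one (c0f_ts hq.c0 hb hp hpb hlc hTc hz)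
  have t1 : tsupport (ps q (b1 q) 1 d.l m₁ T) ⊆ Rk q (b1 q) 1 d.l m₁ T :=
    ps_ts hq.c0 hb hlc hTc
  have e2 : (1 : ℝ) + 1 = 2 := by norm_num
  have o1 : ∀ z ∈ Rk q (b1 q) 1 d.l m₁ T, ps q (b1 q) 2 d.l m₁ T z = 1 := fun z hz => by
    have := ps_next hq.c0 hb hz
    rwa [e2] at this
  have tU : Rk q (b1 q) 1 d.l m₁ T ⊆ UU q d := fun z hz =>
    Rk_UU hq H.ph hw (Rk_mono hb (by norm_num) hz)
  have g0 : Bk 2 univ C' (c0f q (b1 q) d.l m₁ T) :=
    bk_glob (H.g0 m₁ hw.m0 hw.mM) s0 (t0.trans tU) H.C'0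
  have g1 : Bk 2 univ C' (ps q (b1 q) 1 d.l m₁ T) :=
    bk_glob (H.g1 m₁ hw.m0 hw.mM) (s1 1) (t1.trans tU) H.C'0
  have he2 : Continuous (ps q (b1 q) 2 d.l m₁ T) := (s1 2).continuous
  obtain ⟨x0, y0⟩ := cu_of g0 (fun z => c0f_mem.1) H.C'0 (fun z => c0f_mem.2) he2
    fun z hz => o1 z (t0 hz)
  obtain ⟨x1, y1⟩ := cu_of g1 (fun z => ps_mem.1) H.C'0 (fun z => ps_mem.2) he2
    fun z hz => o1 z (t1 hz)
  have hm : ∀ u, m₁ ≤ u → u ≤ m₁ + b1 q → u ≤ 2 * d.l₀ q + 23 / 5 * q.R := fun u _ hu => by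
    have h1 := hw.a1
    have h2 := (H404.INF.lvG hq.gc.inf hok).l0
    have h3 : d.uth q / 2 = d.l₀ q + 11 / 10 * q.R := by unfold Pk.uth; ring
    have hR := hq.gc.inf.R0
    linarith
  exact
    { o₁ := isOpen_univ
      o₂ := isOpen_univ
      oU := isOpen_univ
      u₁ := fun _ _ => mem_univ _
      u₂ := fun _ _ => mem_univ _
      y₁ := fun x i j => ((hok.rg.sy₁ x).apply i j).symm
      y₂ := fun x i j => ((hok.rg.sy₂ x).apply i j).symm
      h₁ := n3_of_ck H.ε12.1 H.ε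
      h₂ := n3_of_ck H.ε12.2 H.ε
      v₁ := contDiffOn_const
      v₂ := contDiffOn_const
      W := (WT_smooth hok.ok hok.Θs hok.ret.sm hok.l_sm H.lit.g).contDiffOn
      W₀ := H.lit.W0.contDiffOn
      χ := (H.tu.χs.mul ((F3_sm _).comp (H.lit.u0.sub contDiff_const))).contDiffOn
      et := he2.continuousOn
      cx := x0
      cy := y0
      cx' := x1
      cy' := y1
      b₀ := fun z _ => by
        show c0f q (b1 q) d.l m₁ T z ^ 2 ≤ ps q (b1 q) 2 d.l m₁ T z ^ 2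
        by_cases h0 : c0f q (b1 q) d.l m₁ T z = 0
        · rw [h0, zero_pow two_ne_zero]
          exact sq_nonneg _
        · rw [o1 z (t0 (subset_tsupport _ h0))]
          have h1 := c0f_mem (q := q) (β := b1 q) (m := m₁) (l := d.l) (T := T) (z := z)
          exact pow_le_pow_left₀ h1.1 h1.2 2
      bψ := fun z _ => by
        show ps q (b1 q) 1 d.l m₁ T z ^ 2 ≤ ps q (b1 q) 2 d.l m₁ T z ^ 2
        by_cases h0 : ps q (b1 q) 1 d.l m₁ T z = 0
        · rw [h0, zero_pow two_ne_zero]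
          exact sq_nonneg _
        · rw [o1 z (t1 (subset_tsupport _ h0))]
          have h1 := ps_mem (q := q) (β := b1 q) (k := 1) (m := m₁) (l := d.l) (T := T) (z := z)
          exact pow_le_pow_left₀ h1.1 h1.2 2
      cl := fun z _ => cl_w1 hq hok H.tu hm hw.w1.hi H.dz H.dz0 H.dz1 he z
      cw := fun z _ hz => by
        have hzU : z ∈ UU q d := Rk_UU hq H.ph hw (ps_supp hq.c0 hb hz)
        have k0 : Nk 1 (fun _ : VV n => (0 : ℝ)) z = 0 := by
          unfold Nk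
          rw [iteratedFDeriv_const_of_ne (by norm_num)]
          simp
        refine ⟨?_, ?_, ?_, ?_, fun j h1 h4 => ⟨H.bW.b j h4 z hzU, H.bW0.b j h4 z hzU,
          H.cl.b j h4 z hzU⟩⟩
        · show |(0 : ℝ)| ≤ e
          rwa [abs_zero]
        · show |(0 : ℝ)| ≤ e
          rwa [abs_zero]
        · exact k0.le.trans he
        · exact k0.le.trans he }

/-- The tolerance of the metric. -/
def dl0 (e : Cst → ℝ) (q : Cst) : ℝ := e q / (2 * (LF q * bq q) + 1)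

theorem bq_nn (q : Cst) : 0 ≤ bq q := sq_nonneg _

theorem cut_q (n : ℕ) (C M : Cst → ℝ) (q : Cst) : ∃ C' : ℝ, 0 ≤ C' ∧
    ∀ (U : Set (VV n)) (l : V n → ℝ) (T : VV n → ℝ) (m : ℝ), 0 ≤ m → m ≤ M q →
      Bk 2 U (C q) (fun z : VV n => l z.1 + l z.2) → Bk 2 U (C q) (H31.EP.qq (n := n)) →
      Bk 2 U (C q) T → Bk 2 U C' (c0f q (b1 q) l m T) ∧ Bk 2 U C' (ps q (b1 q) 1 l m T) := by
  obtain ⟨C₁, h1, H1⟩ := chf_bk (n := n) (F1_sm q) F2_sm (F3_sm (b1 q)) (C q) (M q)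
  obtain ⟨C₂, h2, H2⟩ := chf_bk (n := n) (P1_sm q 1) (P2_sm 1) (P3_sm (b1 q) 1) (C q) (M q)
  refine ⟨C₁ + C₂, by positivity, fun U l T m m0 mM hu hq hT => ⟨?_, ?_⟩⟩
  · exact (H1 U l T m m0 mM hu hq hT).le (by linarith)
  · exact (H2 U l T m m0 mM hu hq hT).le (by linarith)

/-- **The hypotheses of the transfer on the package.** -/
theorem ev_w1 {n : ℕ} (hn : 1 ≤ n) : ∃ C C' : Cst → ℝ, NB_ε C ∧ NB_ε C' ∧ (∀ q, 1 ≤ C q) ∧
    (∀ q, 0 ≤ C' q) ∧ ∀ e : Cst → ℝ, NB_ε e → (∀ q, 0 < e q) → EvC fun q => ∀ d : Pk n,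
      PkOk q d → W1H q d (d.tx q q.rT) (d.ch q .T1) (C q) (C' q) (dl0 e q) (e q) ∧
        W1H q d (d.ty q q.rT) (d.ch q .T2) (C q) (C' q) (dl0 e q) (e q) := by
  obtain ⟨CT, nT, pT, HT⟩ := pkT (n := n) (k := 4) hn (by norm_num) rU_nb aU_nb rU_nn aU_pos
  obtain ⟨CB, nB, pB, HB⟩ := pk_bk hn rU_nb aU_nb rU_nn aU_pos
  choose Cc hCc Hc using cut_q n CB mM
  refine ⟨fun q => 1 + CT q, fun q => Cc q.b_ε, fun q => by
      show 1 + CT q.b_ε = 1 + CT q
      rw [nT q], fun q => rfl,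
    fun q => by linarith [pT q], fun q => hCc _, fun e ne pe => ?_⟩
  have nd : NB_ε (dl0 e) := fun q => by
    unfold dl0
    rw [ne q]
    rfl
  have pd : ∀ q, 0 < dl0 e q := fun q => by
    have h1 := (LF_spec q).1
    have h2 := bq_nn q
    have := pe q
    unfold dl0
    positivity
  have E1 := EvC.ε_le (fun q => e q / (CT q + 1)) fun q => by
    show e q.b_ε / (CT q.b_ε + 1) = e q / (CT q + 1)
    rw [ne q, nT q]
  have E2 := EvC.metric n (dl0 e) nd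
  refine (((HT.and HB).and (E1.and E2)).and (((evGT n).and EvC.good).and
    ((EvC.litSm n).and (evWC.and EvC.pos)))).mono ?_
  rintro q ⟨⟨⟨h1, h2⟩, h3, h4⟩, ⟨gt, gd⟩, lit, wc, pos⟩ d hd
  have hε0 : 0 < q.ε := pos.2.2.2.2.1
  have hR : 1 ≤ q.R := gt.gc.inf.R1
  have hC0 := pT q
  have he0 := pe q
  have h3' := h3 (by positivity)
  have hε : q.ε ≤ e q := h3'.trans (div_le_self he0.le (by linarith))
  have hCε : CT q * q.ε ≤ e q := by
    rw [le_div_iff₀ (by linarith)] at h3'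
    nlinarith
  obtain ⟨c1, c2, c3, c4, c5, c6⟩ := h1 d hd
  obtain ⟨d1, d2, d3, d4⟩ := h2 d hd
  obtain ⟨-, -, -, -, m5⟩ := h4 (pd q) d hd
  have hL := lit d hd
  have hdl : 2 * (LF q * (dl0 e q * bq q)) ≤ e q := by
    have k1 := (LF_spec q).1
    have k2 := bq_nn q
    have k3 : 0 ≤ LF q * bq q := mul_nonneg k1 k2
    unfold dl0
    have k4 : 2 * (LF q * (e q / (2 * (LF q * bq q) + 1) * bq q)) =
        e q * (2 * (LF q * bq q) / (2 * (LF q * bq q) + 1)) := by ring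
    rw [k4]
    refine mul_le_of_le_one_right he0.le ?_
    rw [div_le_one (by positivity)]
    linarith
  have key : ∀ T χ : VV n → ℝ, Tu q d T χ → Bk 2 (UU q d) (CB q) T →
      W1H q d T χ (1 + CT q) (Cc q.b_ε) (dl0 e q) (e q) := fun T χ tu bT => by
    have Hq := Hc q.b_ε
    have g : ∀ m, 0 ≤ m → m ≤ mM q → Bk 2 (UU q d) (Cc q.b_ε) (c0f q (b1 q) d.l m T) ∧
        Bk 2 (UU q d) (Cc q.b_ε) (ps q (b1 q) 1 d.l m T) := fun m m0 mM' => by
      rw [nB q] at Hq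
      exact Hq (UU q d) d.l T m m0 mM' d1 d2 bT
    exact
      { gt := gt
        ph := gd.1.1
        ok := hd
        lit := hL
        tu := tu
        ε := hε
        ε12 := ⟨ck_s₁ hd hR hε0.le (by norm_num), ck_s₂ hd hR hε0.le (by norm_num)⟩
        cl := c3.le hCε
        bW := c4.le (by linarith)
        bW0 := c5.le (by linarith)
        g0 := fun m m0 mM => (g m m0 mM).1
        g1 := fun m m0 mM => (g m m0 mM).2
        C'0 := hCc _
        dz := m5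
        dz0 := (pd q).le
        dz1 := hdl }
  exact ⟨key _ _ (tu1 gt hd hL wc.M) d3, key _ _ (tu2 gt hd hL wc.M) d4⟩

end Vale.Agent.P088.R2.H354.T
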