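import Vale.Agent.P088.R2.H354.T.W1
import Vale.Agent.P088.R2.H222.PkR

/-!
# P088, stage 3, zone T: window 2 and the slope in the windows

`eq_w2`: in window 2 the weight, the tensors and the cut-off are exactly the flat ones.
`NW`: the slope in the two windows.
-/

open Set Filter
open scoped ContDiff Topology Matrix

noncomputable section

namespace Vale.Agent.P088.R2.H354.T

open Vale.Agent.P088.LR Vale.Agent.P088.HY
open Vale.Agent.P088.R2.H222 hiding qq qq_nonneg W0
open Vale.Agent.P088.R2.H31.EP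
open Vale.Agent.P088.R2.H464.Cu (rq mid)
open Vale.Agent.P088.R2.H509.TG hiding TR
open Vale.Agent.P088.R2.H354.E Vale.Agent.P088.R2.H973.W
open Vale.Agent.P088.R2.H551.E

variable {n : ℕ} {q : Cst} {d : Pk n} {z : VV n} {T χ : VV n → ℝ} {m₁ m₂ : ℝ}

/-! ## Window 2 -/

theorem Rk_UR (hq : GT n q) (hw : Wn q d m₁ m₂) (hz : z ∈ Rk q (b2 q) 2 d.l m₂ T) :
    z ∈ UR q d (rU q) := by
  obtain ⟨⟨h1, h2⟩, h3, h4, h5⟩ := hz
  have hp := p₃_ge hq.gc.rad
  have hR := hq.gc.inf.R0
  have eh : d.uth q = 2 * d.l₀ q + 22 / 10 * q.R := rfl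
  have ea : d.uta q = 2 * d.l₀ q + 45 / 10 * q.R := rfl
  have a1 := hw.b0
  have a2 := hw.b1
  rw [eh] at a1
  rw [ea] at a2
  refine ⟨?_, ?_, ?_⟩
  · show qq z < rU q ^ 2
    unfold rU
    rw [sq_abs]
    rw [bq_p₃] at h2
    nlinarith
  · linarith
  · linarith

/-- **In window 2 everything is flat.** -/
theorem eq_w2 (hn : 1 ≤ n) (hq : GT n q) (hR : TR n (rU q) q) (h : PkOk q d)
    (hw : Wn q d m₁ m₂) (hz : z ∈ Rk q (b2 q) 2 d.l m₂ T) :
    EqAt d.s₁ d.s₂ (fun _ => 0) (fun _ => 0) (d.W q) (d.W0 q) z := by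
  obtain ⟨ho, H⟩ := UR_eq hn h (rU_nn q) hR
  have hzU := Rk_UR hq hw hz
  have c1 : Continuous fun x : V n => (x, z.2) := by fun_prop
  have c2 : Continuous fun y : V n => (z.1, y) := by fun_prop
  refine ⟨?_, ?_, Eventually.of_forall fun _ => rfl, Eventually.of_forall fun _ => rfl, ?_⟩
  · filter_upwards [(ho.preimage c1).mem_nhds (show (z.1, z.2) ∈ UR q d (rU q) from hzU)]
      with x hx i j
    rw [(H _ hx).1.1]
  · filter_upwards [(ho.preimage c2).mem_nhds (show (z.1, z.2) ∈ UR q d (rU q) from hzU)]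
      with y hy i j
    rw [(H _ hy).2.1.2]
  · filter_upwards [ho.mem_nhds hzU] with w hw
    exact (H _ hw).2.2.2.2.2.2.2.2.2.2

/-- The cut-off is the flat one in window 2. -/
theorem wχ_w2 (hn : 1 ≤ n) (hq : GT n q) (hR : TR n (rU q) q) (h : PkOk q d)
    (ht : Tu q d T χ) (hw : Wn q d m₁ m₂) : wχ d χ (b2 q) m₂ = c0f q (b2 q) d.l m₂ T := by
  funext z
  have ea : d.uta q = 2 * d.l₀ q + 45 / 10 * q.R := rfl
  have a2 := hw.b1
  rw [ea] at a2
  have hR0 := hq.gc.inf.R0
  rw [wχ_eq hq h ht (fun u _ hu => by linarith) hw.w2.hi]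
  have e0 : c0f q (b2 q) d.l m₂ T z = F1 q (qq z) * (F2 (T z) * F3 (b2 q) (d.u0 z - m₂)) := rfl
  rw [e0, mul_assoc]
  by_cases h1 : F2 (T z) * F3 (b2 q) (d.u0 z - m₂) = 0
  · rw [h1]; ring
  congr 1
  obtain ⟨f2, f3⟩ := ne_zero_and_ne_zero_of_mul h1
  have g2 := F2_supp f2
  obtain ⟨g3, g4⟩ := F3_supp f3
  by_cases h2 : F1 q (d.r2 z) = 0 ∧ F1 q (qq z) = 0
  · rw [h2.1, h2.2]
  have hb := bq_pos hq.gc.rad
  have hc0 := hq.c0
  have hcc := sq_nonneg q.c₀
  have hp := p12 hq.gc.rad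
  have hpb := p2b hq.gc.rad
  have hq0 := qq_nonneg z
  have reg : (81 / 100 * q.c₀ ^ 2 ≤ qq z ∨ True) ∧ qq z ≤ bq q := by
    by_cases hA' : F1 q (d.r2 z) = 0
    · have hB' : F1 q (qq z) ≠ 0 := fun hB' => h2 ⟨hA', hB'⟩
      obtain ⟨a1, a2⟩ := F1_supp hc0 hp hB'
      exact ⟨Or.inr trivial, by linarith⟩
    · obtain ⟨a1, a2⟩ := F1_supp hc0 hp hA'
      obtain ⟨k1, k2, k3⟩ := qq_bd hq h a2 a1
      exact ⟨Or.inr trivial, k2⟩
  have hzU : z ∈ UR q d (rU q) := by
    have hp3 := p₃_ge hq.gc.rad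
    have eh : d.uth q = 2 * d.l₀ q + 22 / 10 * q.R := rfl
    have a1 := hw.b0
    rw [eh] at a1
    have e : d.u0 z = d.l z.1 + d.l z.2 := rfl
    rw [e] at g3 g4
    refine ⟨?_, ?_, ?_⟩
    · show qq z < rU q ^ 2
      have := reg.2
      unfold rU
      rw [sq_abs]
      rw [bq_p₃] at this
      nlinarith
    · linarith
    · linarith
  have := ((UR_eq hn h (rU_nn q) hR).2 z hzU).2.2.2.2.2.1
  rw [this]
  rfl

/-! ## The slope in the windows -/

/-- The slope near a window. -/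
theorem ratio1 (hq : GT n q) (h : PkOk q d) (hw : Wn q d m₁ m₂) {u : ℝ}
    (h1 : m₁ - 1 / 4 ≤ u) (h2 : u ≤ m₁ + b1 q + 1 / 4) (hν : q.ν₁ < q.nm) :
    3 / 4 * q.ν₁ * Real.exp u ≤ deriv d.Φ u ∧ deriv d.Φ u ≤ 3 / 2 * q.nm * Real.exp u := by
  have hν0 := hq.wc.ν₁
  have hnm := hq.wc.nm
  have hN := h.N_pos hq.gc.M1 u
  have ha := hw.a1
  have hb0 : 0 ≤ b1 q := by
    unfold b1
    have : 0 ≤ Real.log (q.nm / q.ν₁) := Real.log_nonneg (by rw [le_div_iff₀ hν0]; linarith)
    linarith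
  have hmono : Monotone (deriv d.Φ) := monotone_of_deriv_nonneg
    (h.Φ's.differentiable (by simp)) fun x => (h.top.k0 x).le
  have e4 : Real.exp (1 / 4) ≤ 3 / 2 := by
    have h1 : Real.exp (1 / 4) ≤ 1 / (1 - 1 / 4) := Real.exp_bound_div_one_sub_of_interval'
      (by norm_num) (by norm_num) |>.le
    linarith
  have e4' : 3 / 4 ≤ Real.exp (-(1 / 4)) := by
    have := Real.add_one_le_exp (-(1 / 4) : ℝ)
    linarith
  have an : ∀ v w : ℝ, v ≤ w → w ≤ d.uth q / 2 →
      deriv d.Φ w / Real.exp w ≤ deriv d.Φ v / Real.exp v := fun v w hv hw' => by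
    rw [h.top.e1 v (hv.trans hw'), h.top.e1 w hw']
    exact h.ph.isΦ.an.antitone hv
  have hE := Real.exp_pos u
  by_cases c1 : u ≤ m₁
  · constructor
    · have k1 := an u m₁ c1 (by linarith)
      have k2 := hw.w1.lo m₁ le_rfl (by linarith)
      rw [div_le_div_iff₀ (Real.exp_pos _) hE] at k1
      have k3 : q.ν₁ * Real.exp u ≤ deriv d.Φ u := by
        have k4 : q.ν₁ * Real.exp m₁ * Real.exp u ≤ deriv d.Φ u * Real.exp m₁ :=
          (mul_le_mul_of_nonneg_right k2 hE.le).trans k1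
        have k5 : q.ν₁ * Real.exp u * Real.exp m₁ ≤ deriv d.Φ u * Real.exp m₁ := by
          linarith
        exact le_of_mul_le_mul_right k5 (Real.exp_pos _)
      nlinarith [mul_pos hν0 hE]
    · have k1 := hmono c1
      have k2 := hw.w1.hi m₁ le_rfl (by linarith)
      have k3 : Real.exp m₁ ≤ 3 / 2 * Real.exp u := by
        have : Real.exp m₁ ≤ Real.exp (1 / 4) * Real.exp u := by
          rw [← Real.exp_add]
          exact Real.exp_le_exp.2 (by linarith)
        nlinarith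
      nlinarith
  by_cases c2 : u ≤ m₁ + b1 q
  · have k1 := hw.w1.lo u (not_le.1 c1).le c2
    have k2 := hw.w1.hi u (not_le.1 c1).le c2
    constructor
    · nlinarith [mul_pos hν0 hE]
    · nlinarith [mul_pos hnm hE]
  · have c2' := (not_le.1 c2).le
    constructor
    · have k1 := hmono c2'
      have k2 := hw.w1.lo (m₁ + b1 q) (by linarith) le_rfl
      have k3 : 3 / 4 * Real.exp u ≤ Real.exp (m₁ + b1 q) := by
        have : Real.exp (-(1 / 4)) * Real.exp u ≤ Real.exp (m₁ + b1 q) := by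
          rw [← Real.exp_add]
          exact Real.exp_le_exp.2 (by linarith)
        nlinarith
      nlinarith
    · have k1 := an (m₁ + b1 q) u c2' (by linarith)
      have k2 := hw.w1.hi (m₁ + b1 q) (by linarith) le_rfl
      rw [div_le_div_iff₀ hE (Real.exp_pos _)] at k1
      have k3 : deriv d.Φ u ≤ q.nm * Real.exp u := by
        have k4 : deriv d.Φ u * Real.exp (m₁ + b1 q) ≤
            q.nm * Real.exp (m₁ + b1 q) * Real.exp u :=
          k1.trans (mul_le_mul_of_nonneg_right k2 hE.le)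
        have k5 : deriv d.Φ u * Real.exp (m₁ + b1 q) ≤
            q.nm * Real.exp u * Real.exp (m₁ + b1 q) := by linarith
        exact le_of_mul_le_mul_right k5 (Real.exp_pos _)
      nlinarith [mul_pos hnm hE]

theorem ratio2 (hq : GT n q) (h : PkOk q d) (hw : Wn q d m₁ m₂) {u : ℝ}
    (h1 : m₂ - 1 / 4 ≤ u) (h2 : u ≤ m₂ + b2 q + 1 / 4) (hν : q.ν₁ < q.nm) :
    3 / 4 * q.ν₁ * Real.exp u ≤ deriv d.Φ u ∧ deriv d.Φ u ≤ 3 / 2 * q.nm * Real.exp u := by
  have hν0 := hq.wc.ν₁
  have hnm := hq.wc.nm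
  have hN := h.N_pos hq.gc.M1 u
  have hb0 : 0 ≤ b2 q := by
    unfold b2
    exact Real.log_nonneg (by rw [le_div_iff₀ hν0]; linarith)
  have hmono : Monotone (deriv d.Φ) := monotone_of_deriv_nonneg
    (h.Φ's.differentiable (by simp)) fun x => (h.top.k0 x).le
  have e4 : Real.exp (1 / 4) ≤ 3 / 2 := by
    have h1 : Real.exp (1 / 4) ≤ 1 / (1 - 1 / 4) := Real.exp_bound_div_one_sub_of_interval'
      (by norm_num) (by norm_num) |>.le
    linarith
  have e4' : 3 / 4 ≤ Real.exp (-(1 / 4)) := by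
    have := Real.add_one_le_exp (-(1 / 4) : ℝ)
    linarith
  have g1 := hw.b0
  have g2 := hw.b1
  -- `Φ' e^(-u)` is nondecreasing on `[uth, uta]`
  have an : ∀ v w : ℝ, d.uth q ≤ v → v ≤ w → w ≤ d.uta q →
      deriv d.Φ v * Real.exp w ≤ deriv d.Φ w * Real.exp v := fun v w hv hvw hw' => by
    rw [h.top.y1 v hv (hvw.trans hw'), h.top.y1 w (hv.trans hvw) hw']
    have hN0 := h.N_pos hq.gc.M1 (d.uth q)
    rw [mul_assoc, mul_assoc, ← Real.exp_add, ← Real.exp_add]
    exact mul_le_mul_of_nonneg_left (Real.exp_le_exp.2 (by linarith)) hN0.le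
  have hE := Real.exp_pos u
  by_cases c1 : u ≤ m₂
  · have k0 : u ≤ m₂ := c1
    constructor
    · have y1 := h.top.y1 u (by linarith) (by linarith)
      have y2 := h.top.y1 m₂ (by linarith) (by linarith)
      have k2 := hw.w2.lo m₂ le_rfl (by linarith)
      have e1 : deriv d.Φ u = deriv d.Φ m₂ * Real.exp (2 * (u - m₂)) := by
        rw [y1, y2, mul_assoc, ← Real.exp_add]
        congr 2
        ring
      have e2 : Real.exp (2 * (u - m₂)) * Real.exp m₂ = Real.exp (u - m₂) * Real.exp u := by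
        rw [← Real.exp_add, ← Real.exp_add]
        congr 1
        ring
      have e3 : Real.exp (-(1 / 4)) ≤ Real.exp (u - m₂) := Real.exp_le_exp.2 (by linarith)
      have e5 : 3 / 4 * Real.exp u ≤ Real.exp (2 * (u - m₂)) * Real.exp m₂ := by
        rw [e2]
        nlinarith
      rw [e1]
      have e6 := mul_le_mul_of_nonneg_right k2 (Real.exp_pos (2 * (u - m₂))).le
      have e7 := mul_le_mul_of_nonneg_left e5 hν0.le
      nlinarith
    · have k1 := hmono c1
      have k2 := hw.w2.hi m₂ le_rfl (by linarith)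
      have k3 : Real.exp m₂ ≤ 3 / 2 * Real.exp u := by
        have : Real.exp m₂ ≤ Real.exp (1 / 4) * Real.exp u := by
          rw [← Real.exp_add]
          exact Real.exp_le_exp.2 (by linarith)
        nlinarith
      nlinarith
  by_cases c2 : u ≤ m₂ + b2 q
  · have k1 := hw.w2.lo u (not_le.1 c1).le c2
    have k2 := hw.w2.hi u (not_le.1 c1).le c2
    constructor
    · nlinarith [mul_pos hν0 hE]
    · nlinarith [mul_pos hnm hE]
  · have c2' := (not_le.1 c2).le
    set w := m₂ + b2 q with hwd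
    have y1 := h.top.y1 u (by linarith) (by linarith)
    have y2 := h.top.y1 w (by linarith) (by linarith)
    constructor
    · have k1 := an w u (by linarith) c2' (by linarith)
      have k2 := hw.w2.lo w (by linarith) le_rfl
      have k3 : q.ν₁ * Real.exp u ≤ deriv d.Φ u := by
        have k4 := mul_le_mul_of_nonneg_right k2 hE.le
        have k5 : q.ν₁ * Real.exp u * Real.exp w ≤ deriv d.Φ u * Real.exp w := by linarith
        exact le_of_mul_le_mul_right k5 (Real.exp_pos _)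
      nlinarith [mul_pos hν0 hE]
    · have k2 := hw.w2.hi w (by linarith) le_rfl
      have e1 : deriv d.Φ u = deriv d.Φ w * Real.exp (2 * (u - w)) := by
        rw [y1, y2, mul_assoc, ← Real.exp_add]
        congr 2
        ring
      have e2 : Real.exp w * Real.exp (2 * (u - w)) = Real.exp (u - w) * Real.exp u := by
        rw [← Real.exp_add, ← Real.exp_add]
        congr 1
        ring
      have e3 : Real.exp (u - w) ≤ Real.exp (1 / 4) := Real.exp_le_exp.2 (by linarith)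
      rw [e1]
      have e6 := mul_le_mul_of_nonneg_right k2 (Real.exp_pos (2 * (u - w))).le
      have e7 : Real.exp (u - w) * Real.exp u ≤ 3 / 2 * Real.exp u := by nlinarith
      have e8 := mul_le_mul_of_nonneg_left e7 hnm.le
      rw [mul_assoc, e2] at e6
      linarith

end Vale.Agent.P088.R2.H354.T
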