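import Vale.Agent.P088.R2.H31.EP.PackL

/-!
# P088, stage 3, zone T: the windows of the slope

`IsWin f Φ m β ν nm B`: on `[m, m + β]` the ratio `Φ' / e^u` is between `ν` and `nm`, `Φ'' = f Φ'`
and `|Φ^(j+1)| ≤ B j e^m`. Window 1: first pass, `f = 9/10`; window 2: reverse pass, `f = 2`.
-/

open Set Filter MeasureTheory
open scoped ContDiff Topology

noncomputable section

namespace Vale.Agent.P088.R2.H354.T

open Vale.Agent.P088.R2.H313.Ph Vale.Agent.P088.R2.H313.Tp

/-- A window of the slope. -/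
structure IsWin (f : ℝ) (Φ : ℝ → ℝ) (m β ν nm : ℝ) (B : ℕ → ℝ) : Prop where
  K : ∀ u, m ≤ u → u ≤ m + β → deriv (deriv Φ) u = f * deriv Φ u
  lo : ∀ u, m ≤ u → u ≤ m + β → ν * Real.exp u ≤ deriv Φ u
  hi : ∀ u, m ≤ u → u ≤ m + β → deriv Φ u ≤ nm * Real.exp u
  bd : ∀ j u, m ≤ u → u ≤ m + β → |iteratedDeriv (j + 1) Φ u| ≤ B j * Real.exp m

/-- The bounds in a window. -/
def BW (nm β : ℝ) (Cd : ℕ → ℝ) : ℕ → ℝ
  | 0 => nm * Real.exp β
  | j + 1 => 2 * (Cd j * (nm * Real.exp β))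

/-! ## Window 1 -/

section one

variable {κ nm ν C1 C2 C3 al be Cb M0 : ℝ} {Cd : ℕ → ℝ} {Φ : ℝ → ℝ}

theorem cont_ratio (h : IsPhiU (9 / 10) κ nm ν C1 C2 C3 al be Cb Cd M0 Φ) :
    Continuous fun u => deriv Φ u / Real.exp u := by
  have h1 : Continuous (deriv Φ) := (contDiff_infty_iff_deriv.1 h.sm).2.continuous
  exact h1.div Real.continuous_exp fun u => (Real.exp_pos u).ne'

theorem ratio_hit (h : IsPhiU (9 / 10) κ nm ν C1 C2 C3 al be Cb Cd M0 Φ) (hM : 0 < M0) {x : ℝ}
    (hx : 0 < x) : ∃ m, Real.log (M0 / x) ≤ m ∧ m ≤ Real.log (Cb * M0 / x) ∧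
      deriv Φ m / Real.exp m = x := by
  have hCb : 1 ≤ Cb := by
    have h1 := h.n1 0
    have h2 := h.n2 0
    by_contra hc
    have : Cb * M0 < 1 * M0 := mul_lt_mul_of_pos_right (not_le.1 hc) hM
    linarith
  have hCM : M0 ≤ Cb * M0 := le_mul_of_one_le_left hM.le hCb
  have hCM0 : 0 < Cb * M0 := lt_of_lt_of_le hM hCM
  have hab : Real.log (M0 / x) ≤ Real.log (Cb * M0 / x) :=
    Real.log_le_log (by positivity) (div_le_div_of_nonneg_right hCM hx.le)
  have k1 : x ≤ deriv Φ (Real.log (M0 / x)) / Real.exp (Real.log (M0 / x)) := by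
    rw [Real.exp_log (by positivity), le_div_iff₀ (by positivity), mul_div_cancel₀ _ hx.ne']
    exact h.n1 _
  have k2 : deriv Φ (Real.log (Cb * M0 / x)) / Real.exp (Real.log (Cb * M0 / x)) ≤ x := by
    rw [Real.exp_log (by positivity), div_le_iff₀ (by positivity), mul_div_cancel₀ _ hx.ne']
    exact h.n2 _
  obtain ⟨m, hm, he⟩ := intermediate_value_Icc' hab (cont_ratio h).continuousOn ⟨k2, k1⟩
  exact ⟨m, hm.1, hm.2, he⟩

/-- The form of the slope in window 1. -/
theorem one_form (h : IsPhiU (9 / 10) κ nm ν C1 C2 C3 al be Cb Cd M0 Φ) (hν : 0 < ν)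
    (hn : ν < nm) {m m' : ℝ} (e : deriv Φ m / Real.exp m = nm) (e' : deriv Φ m' / Real.exp m' = ν) :
    m' = m + 10 * Real.log (nm / ν) ∧
      ∀ u, m ≤ u → u ≤ m' → deriv Φ u / Real.exp u = nm * Real.exp (-(1 / 10) * (u - m)) ∧
        deriv (deriv Φ) u = 9 / 10 * deriv Φ u := by
  have hnm : 0 < nm := hν.trans hn
  have hmm : m < m' := by
    by_contra hc
    have := h.an.antitone (not_lt.1 hc)
    rw [e, e'] at this
    linarith
  have rg : ∀ u, m ≤ u → u ≤ m' → ν * Real.exp u ≤ deriv Φ u ∧ deriv Φ u ≤ nm * Real.exp u := by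
    intro u h1 h2
    have a1 := h.an.antitone h1
    have a2 := h.an.antitone h2
    rw [e] at a1
    rw [e'] at a2
    rw [div_le_iff₀ (Real.exp_pos _)] at a1
    rw [le_div_iff₀ (Real.exp_pos _)] at a2
    exact ⟨a2, a1⟩
  have hK : ∀ u, m ≤ u → u ≤ m' → deriv (deriv Φ) u = 9 / 10 * deriv Φ u := fun u h1 h2 =>
    h.p1 u (rg u h1 h2).1 (rg u h1 h2).2
  have hd : ∀ u, HasDerivAt (deriv Φ) (deriv (deriv Φ) u) u := fun u =>
    (((contDiff_infty_iff_deriv.1 h.sm).2.differentiable (by simp)) u).hasDerivAt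
  have hg : ∀ u, HasDerivAt (fun u => deriv Φ u * Real.exp (-(9 / 10 * u)))
      ((deriv (deriv Φ) u - 9 / 10 * deriv Φ u) * Real.exp (-(9 / 10 * u))) u := by
    intro u
    have h1 : HasDerivAt (fun u : ℝ => -(9 / 10 * u)) (-(9 / 10 * 1)) u :=
      ((hasDerivAt_id u).const_mul (9 / 10)).neg
    have h2 := (hd u).mul h1.exp
    refine h2.congr_deriv ?_
    ring
  have hcst : ∀ u ∈ Icc m m', deriv Φ u * Real.exp (-(9 / 10 * u)) =
      deriv Φ m * Real.exp (-(9 / 10 * m)) := by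
    refine constant_of_has_deriv_right_zero
      (fun u _ => (hg u).continuousAt.continuousWithinAt) fun u hu => ?_
    have := hg u
    rw [hK u hu.1 hu.2.le, sub_self, zero_mul] at this
    exact this.hasDerivWithinAt
  have fm : ∀ u, m ≤ u → u ≤ m' →
      deriv Φ u / Real.exp u = nm * Real.exp (-(1 / 10) * (u - m)) := by
    intro u h1 h2
    have k := hcst u ⟨h1, h2⟩
    have em : deriv Φ m = nm * Real.exp m := by
      rw [div_eq_iff (Real.exp_pos _).ne'] at e
      exact e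
    have k2 : deriv Φ u = deriv Φ m * Real.exp (-(9 / 10 * m)) * Real.exp (9 / 10 * u) := by
      rw [← k, mul_assoc, ← Real.exp_add]
      simp
    rw [k2, em, div_eq_mul_inv, ← Real.exp_neg, mul_assoc, mul_assoc, mul_assoc, ← Real.exp_add,
      ← Real.exp_add, ← Real.exp_add]
    congr 2
    ring
  refine ⟨?_, fun u h1 h2 => ⟨fm u h1 h2, hK u h1 h2⟩⟩
  have k := fm m' hmm.le le_rfl
  rw [e'] at k
  have k1 : nm / ν = Real.exp (1 / 10 * (m' - m)) := by
    rw [div_eq_iff hν.ne', k, mul_left_comm, ← Real.exp_add]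
    have : 1 / 10 * (m' - m) + -(1 / 10) * (m' - m) = 0 := by ring
    rw [this, Real.exp_zero, mul_one]
  rw [k1, Real.log_exp]
  ring

/-- **Window 1** for the slope without second growth. -/
theorem win_one (h : IsPhiU (9 / 10) κ nm ν C1 C2 C3 al be Cb Cd M0 Φ) (hM : 0 < M0)
    (hCd : ∀ j, 0 ≤ Cd j) (hν : 0 < ν) (hn : ν < nm) :
    ∃ m, Real.log (M0 / nm) ≤ m ∧ m ≤ Real.log (Cb * M0 / nm) ∧
      IsWin (9 / 10) Φ m (10 * Real.log (nm / ν)) ν nm (BW nm (10 * Real.log (nm / ν)) Cd) ∧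
      ∀ u, 2 * ν * Real.exp u ≤ deriv Φ u → deriv Φ u ≤ nm / 2 * Real.exp u →
        m + 1 / 4 ≤ u ∧ u ≤ m + 10 * Real.log (nm / ν) - 1 / 4 := by
  have hnm : 0 < nm := hν.trans hn
  obtain ⟨m, a1, a2, e⟩ := ratio_hit h hM hnm
  obtain ⟨m', b1, b2, e'⟩ := ratio_hit h hM hν
  obtain ⟨hm, F⟩ := one_form h hν hn e e'
  set β := 10 * Real.log (nm / ν) with hβ
  have N0 : ∀ u, 0 < deriv Φ u := fun u => lt_of_lt_of_le hM (h.n1 u)
  have lo : ∀ u, m ≤ u → u ≤ m + β → ν * Real.exp u ≤ deriv Φ u := fun u _ h2 => by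
    have := h.an.antitone (hm ▸ h2)
    rwa [e', le_div_iff₀ (Real.exp_pos _)] at this
  have hi : ∀ u, m ≤ u → u ≤ m + β → deriv Φ u ≤ nm * Real.exp u := fun u h1 _ => by
    have := h.an.antitone h1
    rwa [e, div_le_iff₀ (Real.exp_pos _)] at this
  have hiβ : ∀ u, m ≤ u → u ≤ m + β → deriv Φ u ≤ nm * Real.exp β * Real.exp m :=
    fun u h1 h2 => by
    refine (hi u h1 h2).trans ?_
    rw [mul_assoc, ← Real.exp_add]
    refine mul_le_mul_of_nonneg_left (Real.exp_le_exp.2 (by linarith)) hnm.le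
  refine ⟨m, a1, a2, ⟨fun u h1 h2 => (F u h1 (by rw [hm]; exact h2)).2, lo, hi, ?_⟩, ?_⟩
  · intro j u h1 h2
    rcases j with _ | j
    · rw [zero_add, iteratedDeriv_one, abs_of_pos (N0 u)]
      exact hiβ u h1 h2
    · have k1 := h.kd j u
      rw [(F u h1 (by rw [hm]; exact h2)).2] at k1
      refine k1.trans ?_
      have k2 := hiβ u h1 h2
      have k3 := N0 u
      have k4 : Cd j * (9 / 10 * deriv Φ u) ≤ Cd j * (2 * (nm * Real.exp β * Real.exp m)) :=
        mul_le_mul_of_nonneg_left (by linarith) (hCd j)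
      refine k4.trans (le_of_eq ?_)
      show _ = 2 * (Cd j * (nm * Real.exp β)) * Real.exp m
      ring
  · intro u h1 h2
    have r1 : 2 * ν ≤ deriv Φ u / Real.exp u := by rwa [le_div_iff₀ (Real.exp_pos _)]
    have r2 : deriv Φ u / Real.exp u ≤ nm / 2 := by rwa [div_le_iff₀ (Real.exp_pos _)]
    have hmu : m ≤ u := by
      by_contra hc
      have := h.an (not_le.1 hc)
      simp only at this
      rw [e] at this
      linarith
    have hum : u ≤ m' := by
      by_contra hc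
      have := h.an (not_le.1 hc)
      simp only at this
      rw [e'] at this
      linarith
    have k := (F u hmu hum).1
    rw [k] at r1 r2
    have l2 : (1 : ℝ) / 2 ≤ Real.log 2 := by
      have := Real.log_two_gt_d9
      linarith
    constructor
    · have k1 : Real.exp (-(1 / 10) * (u - m)) ≤ 1 / 2 := by
        have : nm * Real.exp (-(1 / 10) * (u - m)) ≤ nm * (1 / 2) := by linarith
        exact le_of_mul_le_mul_left this hnm
      have k2 := Real.log_le_log (Real.exp_pos _) k1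
      have k3 : Real.log (1 / 2) = -Real.log 2 := by rw [one_div, Real.log_inv]
      rw [Real.log_exp, k3] at k2
      linarith
    · have k1 : 2 * ν / nm ≤ Real.exp (-(1 / 10) * (u - m)) := by
        rw [div_le_iff₀ hnm]; linarith
      have k2 := Real.log_le_log (by positivity) k1
      rw [Real.log_exp, mul_div_assoc, Real.log_mul two_ne_zero (by positivity)] at k2
      have k3 : Real.log (ν / nm) = -Real.log (nm / ν) := by
        rw [← Real.log_inv, inv_div]
      rw [k3] at k2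
      rw [hβ]
      linarith

end one

/-! ## Window 2 -/

section two

variable {L t a b C M0 nm ν : ℝ} {Cd CL : ℕ → ℝ} {Φ Ψ : ℝ → ℝ}

/-- The beginning of window 2. -/
def m2 (t N ν : ℝ) : ℝ := 2 * t - Real.log N + Real.log ν

/-- **Window 2**, the reverse pass. -/
theorem win_two (h : IsTop 2 L t a b C Cd CL M0 Φ Ψ) (hCd : ∀ j, 0 ≤ Cd j)
    (hN : 0 < deriv Ψ t) (hν : 0 < ν) (hn : ν < nm) (h1 : t ≤ m2 t (deriv Ψ t) ν)
    (h2 : m2 t (deriv Ψ t) ν + Real.log (nm / ν) ≤ a) :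
    IsWin 2 Ψ (m2 t (deriv Ψ t) ν) (Real.log (nm / ν)) ν nm (BW nm (Real.log (nm / ν)) Cd) ∧
      ∀ u, t ≤ u → u ≤ a → 2 * ν * Real.exp u ≤ deriv Ψ u → deriv Ψ u ≤ nm / 2 * Real.exp u →
        m2 t (deriv Ψ t) ν + 1 / 4 ≤ u ∧ u ≤ m2 t (deriv Ψ t) ν + Real.log (nm / ν) - 1 / 4 := by
  have hnm : 0 < nm := hν.trans hn
  set N := deriv Ψ t with hNd
  set m := m2 t N ν with hm
  have fm : ∀ u, t ≤ u → u ≤ a → deriv Ψ u = ν * Real.exp (u - m) * Real.exp u := by
    intro u k1 k2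
    rw [h.y1 u k1 k2, ← hNd]
    have e1 : Real.exp (2 * (u - t)) = Real.exp (u - m) * Real.exp u / (N / ν) := by
      rw [eq_div_iff (by positivity)]
      nth_rewrite 1 [← Real.exp_log (by positivity : 0 < N / ν)]
      rw [← Real.exp_add, ← Real.exp_add, Real.log_div hN.ne' hν.ne']
      congr 1
      rw [hm, m2]
      ring
    rw [e1]
    field_simp
  have lo : ∀ u, m ≤ u → u ≤ m + Real.log (nm / ν) → ν * Real.exp u ≤ deriv Ψ u := by
    intro u k1 k2
    rw [fm u (h1.trans k1) (k2.trans h2), mul_assoc]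
    refine mul_le_mul_of_nonneg_left ?_ hν.le
    exact le_mul_of_one_le_left (Real.exp_pos u).le (Real.one_le_exp (by linarith))
  have hi : ∀ u, m ≤ u → u ≤ m + Real.log (nm / ν) → deriv Ψ u ≤ nm * Real.exp u := by
    intro u k1 k2
    rw [fm u (h1.trans k1) (k2.trans h2)]
    refine mul_le_mul_of_nonneg_right ?_ (Real.exp_pos u).le
    have k3 : Real.exp (u - m) ≤ nm / ν := by
      rw [← Real.exp_log (by positivity : 0 < nm / ν)]
      exact Real.exp_le_exp.2 (by linarith)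
    calc ν * Real.exp (u - m) ≤ ν * (nm / ν) := mul_le_mul_of_nonneg_left k3 hν.le
      _ = nm := by field_simp
  have hiβ : ∀ u, m ≤ u → u ≤ m + Real.log (nm / ν) →
      deriv Ψ u ≤ nm * Real.exp (Real.log (nm / ν)) * Real.exp m := fun u k1 k2 => by
    refine (hi u k1 k2).trans ?_
    rw [mul_assoc, ← Real.exp_add]
    exact mul_le_mul_of_nonneg_left (Real.exp_le_exp.2 (by linarith)) hnm.le
  refine ⟨⟨fun u k1 k2 => h.x1 u (h1.trans k1) (k2.trans h2), lo, hi, ?_⟩, ?_⟩
  · intro j u k1 k2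
    have hp : 0 < deriv Ψ u := lt_of_lt_of_le (by positivity) (lo u k1 k2)
    rcases j with _ | j
    · rw [zero_add, iteratedDeriv_one, abs_of_pos hp]
      exact hiβ u k1 k2
    · have k3 := h.kd j u (k2.trans h2)
      rw [h.x1 u (h1.trans k1) (k2.trans h2)] at k3
      refine k3.trans ?_
      have k4 := hiβ u k1 k2
      have k5 : Cd j * (2 * deriv Ψ u) ≤
          Cd j * (2 * (nm * Real.exp (Real.log (nm / ν)) * Real.exp m)) :=
        mul_le_mul_of_nonneg_left (by linarith) (hCd j)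
      refine k5.trans (le_of_eq ?_)
      show _ = 2 * (Cd j * (nm * Real.exp (Real.log (nm / ν)))) * Real.exp m
      ring
  · intro u k1 k2 k3 k4
    have l2 : (1 : ℝ) / 2 ≤ Real.log 2 := by
      have := Real.log_two_gt_d9
      linarith
    rw [fm u k1 k2] at k3 k4
    have r1 : 2 * ν ≤ ν * Real.exp (u - m) := le_of_mul_le_mul_right k3 (Real.exp_pos u)
    have r2 : ν * Real.exp (u - m) ≤ nm / 2 := le_of_mul_le_mul_right k4 (Real.exp_pos u)
    constructor
    · have s1 : (2 : ℝ) ≤ Real.exp (u - m) := by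
        have : ν * 2 ≤ ν * Real.exp (u - m) := by linarith
        exact le_of_mul_le_mul_left this hν
      have s2 := Real.log_le_log two_pos s1
      rw [Real.log_exp] at s2
      linarith
    · have s1 : Real.exp (u - m) ≤ nm / ν / 2 := by
        rw [div_div, le_div_iff₀ (by positivity)]
        linarith
      have s2 := Real.log_le_log (Real.exp_pos _) s1
      rw [Real.log_exp, Real.log_div (by positivity) two_ne_zero] at s2
      linarith

end two

end Vale.Agent.P088.R2.H354.T
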